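import Vale.Agent.P313.H463.UV.Fin

/-!
The universal machine for codes of randomized machines: from the space of the universal machine
on one code to all promise problems.
-/

namespace Vale.Agent.P313.UV

open Finset Sel UD

/-- Symbols of a word with `m` in front. -/
def psy : List Bool → (ℕ → ℕ) → ℕ → ℕ
  | [], ys, p => ys p
  | b :: m, ys, p => if p = 0 then 0 else if p = 1 then (if b = true then 3 else 2)
    else psy m ys (p - 1)

theorem psy_eq (y : List Bool) : ∀ (m : List Bool) (p : ℕ),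
    syc (inSym (m ++ y) p) = psy m (fun p => syc (inSym y p)) p := by
  intro m
  induction m with
  | nil => intro p; rfl
  | cons b m ih =>
    intro p
    rcases p with _ | _ | p
    · simp [inSym, psy, syc]
    · rw [Nat.zero_add, List.cons_append, inSym_cons_one]
      cases b <;> simp [psy, syc]
    · rw [show p + 1 + 1 = p + 2 from rfl, List.cons_append, inSym_cons_succ, ih]
      simp [psy]

theorem lf_psy : ∀ (m : List Bool) {k : ℕ} {ys : Fn (k + 1)} {p : Fn k}, LF ys → LF p →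
    LF (fun x a => psy m (fun q => ys x (Fin.cons q a)) (p x a)) := by
  intro m
  induction m with
  | nil => intro k ys p hy hp; exact hy.subst hp
  | cons b m ih =>
    intro k ys p hy hp
    have h1 := ih (p := fun x a => p x a - 1) hy (hp.sub (LF.const 1))
    have h2 : LF (fun _ _ => (if b = true then 3 else 2) : Fn k) := LF.const _
    refine (LF.ite (LFP.eq hp (LF.const 0)) (LF.const 0)
      (LF.ite (LFP.eq hp (LF.const 1)) h2 h1)).congr (fun x a => ?_)
    rfl

/-- Simulation of a fixed machine, with a fixed word in front, on the query about acceptance. -/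
theorem comp_machine_pre (hV : WordSpec) (hU1 : UsimSpec) (hU2 : UsimLF) {U : RTM}
    (hU : U.Deterministic) (m : List Bool) (M : RTM) (c : ℕ) :
    ∃ (D : RTM) (e : ℕ), D.Deterministic ∧ ∀ (x : List Bool) (r : Bool) (s : ℕ),
      HaltsIn U (m ++ qw (cK M c x) (cC M c x) (cS M c x) (cK M c x) (sT c x) 0
        (cK M c x / 2)) r s →
      DoneIn D x r (e * (s + Nat.log 2 (x.length + 2))) := by
  classical
  obtain ⟨par, e4, hs4⟩ := hU1 U hU
  have hsim : SimOk U par e4 := hs4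
  have hsy : LF (fun x b => psy m (vsy (cK M c x) (rows (cC M c x) (cS M c x) (cK M c x)
      (sT c x) 0 (cK M c x / 2))) (b 0) : Fn 2) := by
    have h1 : LF (fun x b => vsy (cK M c x) (rows (cC M c x) (cS M c x) (cK M c x) (sT c x) 0
        (cK M c x / 2)) (b 0) : Fn 3) :=
      lf_qsy M c hV ((lfx_T (c := c)).lf 3) (LF.const 0)
        (((lfx_cK M c).lf 3).div (LF.const 2)) (LF.proj 0)
    refine (lf_psy m h1 (LF.proj 0)).congr (fun x a => ?_)
    simp only [Fin.cons_zero]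
  have hn : LF (fun x _ => m.length + wlen (cK M c x) : Fn 1) :=
    (LF.const m.length).add (lf_wlen ((lfx_cK M c).lf 1))
  obtain ⟨hpg, -⟩ := lfp_pg hU2 (k := 1)
    (sy := fun x b => psy m (vsy (cK M c x) (rows (cC M c x) (cS M c x) (cK M c x) (sT c x) 0
      (cK M c x / 2))) (b 0))
    (n := fun x _ => m.length + wlen (cK M c x)) (N := fun _ a => a 0) par e4 hsy
    hn (LF.proj 0) 0
  obtain ⟨-, hpf⟩ := lfp_pg hU2 (k := 1)
    (sy := fun x b => psy m (vsy (cK M c x) (rows (cC M c x) (cS M c x) (cK M c x) (sT c x) 0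
      (cK M c x / 2))) (b 0))
    (n := fun x _ => m.length + wlen (cK M c x)) (N := fun _ a => a 0) par e4 hsy
    hn (LF.proj 0) 2
  obtain ⟨D, e, hD, hsh⟩ := shell' hpf hpg
  obtain ⟨C2, hC2⟩ := budget e4
  obtain ⟨d, hd⟩ : ∃ d : ℕ, ∀ x : List Bool,
      m.length + wlen (cK M c x) ≤ (x.length + 2) ^ d := by
    obtain ⟨d, hd⟩ := hn.pb
    refine ⟨d * 2, fun x => ?_⟩
    have h1 := hd x (fun _ => 0)
    have h2 : mu x (fun _ : Fin 1 => 0) = x.length + 2 := by simp [mu]
    rw [h2] at h1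
    refine h1.trans (Nat.pow_le_pow_right (by omega) (by omega))
  refine ⟨D, e * (C2 * (2 * d + 4) + C2) + e, hD, fun x r s hx => ?_⟩
  set y := m ++ qw (cK M c x) (cC M c x) (cS M c x) (cK M c x) (sT c x) 0 (cK M c x / 2) with hy
  have hlen : y.length = m.length + wlen (cK M c x) := by
    rw [hy, List.length_append]
    congr 1
    exact hV.1 _ _
  have e5 : (fun p => syc (inSym y p)) = psy m (vsy (cK M c x) (rows (cC M c x) (cS M c x)
      (cK M c x) (sT c x) 0 (cK M c x / 2))) := by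
    funext p
    rw [hy, psy_eq]
    congr 1
    funext q
    exact hV.2.1 _ _ _
  -- the tests on this input
  have eg : ∀ N, (ind (e4 ≤ N ∧ ¬ ∀ W < N + 1, usim (psy m (vsy (cK M c x) (rows (cC M c x)
      (cS M c x) (cK M c x) (sT c x) 0 (cK M c x / 2)))) (m.length + wlen (cK M c x))
      (wpar par W) N = 0) ≠ 0) ↔
      Pg (fun p => syc (inSym y p)) y.length par e4 N := by
    intro N
    rw [ind_ne_zero, e5, hlen]
    rfl
  have ef : ∀ N, (ind (e4 ≤ N ∧ ¬ ∀ W < N + 1, ¬ usim (psy m (vsy (cK M c x) (rows (cC M c x)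
      (cS M c x) (cK M c x) (sT c x) 0 (cK M c x / 2)))) (m.length + wlen (cK M c x))
      (wpar par W) N = 2)
      ≠ 0) ↔ Pf (fun p => syc (inSym y p)) y.length par e4 N := by
    intro N
    rw [ind_ne_zero, e5, hlen]
    rfl
  have hex : ∃ N, Pg (fun p => syc (inSym y p)) y.length par e4 N :=
    ⟨bN e4 y.length s, pg_full hsim hx⟩
  have h1 := hsh x (Nat.find hex) ((eg _).2 (Nat.find_spec hex))
    (fun m hm => Nat.find_min' hex ((eg m).1 hm))
  have h2 : decide (ind (e4 ≤ Nat.find hex ∧ ¬ ∀ W < Nat.find hex + 1, ¬ usim (psy m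
      (vsy (cK M c x) (rows (cC M c x) (cS M c x) (cK M c x) (sT c x) 0 (cK M c x / 2))))
      (m.length + wlen (cK M c x)) (wpar par W) (Nat.find hex) = 2) ≠ 0) = r := by
    cases hr : r
    · rw [decide_eq_false_iff_not, ef]
      intro h
      have := pf_sound hsim hx h
      rw [hr] at this
      exact absurd this (by simp)
    · rw [decide_eq_true_eq, ef]
      exact pg_sound hsim hx (Nat.find_spec hex) hr
  have h3 : DoneIn D x r (e * Nat.log 2 (x.length + Nat.find hex + 2) + e) := by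
    have h4 := h1
    change DoneIn D x (decide (ind (e4 ≤ Nat.find hex ∧ ¬ ∀ W < Nat.find hex + 1,
      ¬ usim (psy m (vsy (cK M c x) (rows (cC M c x) (cS M c x) (cK M c x) (sT c x) 0
      (cK M c x / 2)))) (m.length + wlen (cK M c x)) (wpar par W) (Nat.find hex) = 2) ≠ 0)) _
      at h4
    rwa [h2] at h4
  refine h3.mono ?_
  have h4 : Nat.find hex ≤ bN e4 (m.length + wlen (cK M c x)) s :=
    le_of_le_of_eq (Nat.find_min' hex (pg_full hsim hx)) (by rw [hlen])
  have h5 : Nat.log 2 (x.length + Nat.find hex + 2) ≤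
      C2 * (s + Nat.log 2 (x.length + (m.length + wlen (cK M c x)) + 2)) + C2 :=
    (Nat.log_mono_right (by omega)).trans (hC2 x.length (m.length + wlen (cK M c x)) s)
  have h6 := log_le_of_pow (hd x)
  have h7 : 1 ≤ Nat.log 2 (x.length + 2) := Nat.log_pos (by norm_num) (by omega)
  generalize Nat.log 2 (x.length + 2) = L at h6 h7 ⊢
  generalize Nat.log 2 (x.length + (m.length + wlen (cK M c x)) + 2) = L' at h5 h6
  generalize Nat.log 2 (x.length + Nat.find hex + 2) = L'' at h5 ⊢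
  have h8 : C2 * (s + L') + C2 ≤ (C2 * (2 * d + 4) + C2) * (s + L) := by
    have h9 : C2 * L' ≤ C2 * ((2 * d + 4) * L) := Nat.mul_le_mul_left _ h6
    have h10 : C2 * s ≤ C2 * (2 * d + 4) * s := by
      nlinarith [Nat.zero_le (C2 * d * s), Nat.zero_le (C2 * s)]
    nlinarith
  have h9 := Nat.mul_le_mul_left e (h5.trans h8)
  nlinarith

/-- From the space of `U` on one code to all promise problems. -/
theorem back (hV : WordSpec) (hU1 : UsimSpec) (hU2 : UsimLF) {U R : RTM} {c0 : ℕ}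
    (hU : U.Deterministic) (hR : WalkOk R c0) {m : List Bool} {B : Set (List Bool)}
    {T4 S4 : ℕ → ℝ} (hdec : UDS.DecidesFrom U m B T4 S4)
    (hB : ∀ y : List Bool,
      (2 / 3 ≤ R.probAt y true ((y.length + 2) ^ c0) 0 R.init → y ∈ B) ∧
      (R.probAt y true ((y.length + 2) ^ c0) 0 R.init ≤ 1 / 3 → y ∉ B))
    {S : ℕ → ℝ} (hSn : UD.Nice S) (h : ∃ e : ℝ, ∀ (x : List Bool) (ω : ℕ → Bool) (t : ℕ)
      (i : Fin U.tapes), (((U.run (m ++ x) ω t).work i).cells : ℝ) ≤ e * S x.length) :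
    UD.PromiseBPLIn S := by
  obtain ⟨e', he'⟩ := h
  intro M c hM
  obtain ⟨D, e1, hD, hsim⟩ := comp_machine_pre hV hU1 hU2 hU m M c
  obtain ⟨d', hd'⟩ := wlen_pb M c
  obtain ⟨C, hCp⟩ := hSn.poly d'
  have hCp' : ∀ n : ℕ, S ((n + 2) ^ d') ≤ |C| * S n := fun n => (hCp n).trans
    (mul_le_mul_of_nonneg_right (le_abs_self _) (by linarith [hSn.one_le n]))
  refine ⟨D, e1 * (|e'| * |C| + 1), hD, fun x => ?_⟩
  set y := qw (cK M c x) (cC M c x) (cS M c x) (cK M c x) (sT c x) 0 (cK M c x / 2) with hy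
  have hylen : y.length ≤ (x.length + 2) ^ d' := (hV.1 _ _).trans_le (hd' x)
  obtain ⟨r, hr, hh⟩ : ∃ r : Bool, (r = true ↔ y ∈ B) ∧
      ∀ ω : ℕ → Bool, ∃ t0, U.verdict (U.run (m ++ y) ω t0).state = some r := by
    classical
    refine ⟨decide (y ∈ B), by simp, fun ω => ⟨⌈T4 y.length⌉₊, ?_⟩⟩
    have h1 := (hdec y ω).1 ⌈T4 y.length⌉₊ (Nat.le_ceil _)
    by_cases hx : y ∈ B
    · rw [h1.1 hx]; simp [hx]
    · rw [h1.2 hx]; simp [hx]
  have h1 := hSn.one_le x.length
  have hb : 0 ≤ |e'| * |C| * S x.length := by positivity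
  have hh' : HaltsIn U (m ++ y) r ⌊|e'| * |C| * S x.length⌋₊ := by
    intro ω
    refine ⟨hh ω, fun t i => Nat.le_floor ?_⟩
    have h3 : S y.length ≤ |C| * S x.length := (hSn.mono hylen).trans (hCp' _)
    have h4 := hSn.one_le y.length
    calc (((U.run (m ++ y) ω t).work i).cells : ℝ) ≤ e' * S y.length := he' y ω t i
      _ ≤ |e'| * S y.length := mul_le_mul_of_nonneg_right (le_abs_self _) (by linarith)
      _ ≤ |e'| * (|C| * S x.length) := mul_le_mul_of_nonneg_left h3 (abs_nonneg _)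
      _ = |e'| * |C| * S x.length := by ring
  have hdone := hsim x r _ hh'
  have hVK := cV_le_cK (M := M) (c := c) x
  have hTK := sT_le_cK (M := M) (c := c) x
  have hV3 := cV_pos (M := M) (c := c) x
  have hK12 : 12 ≤ cK M c x := by
    unfold cK
    have g1 : 1 ≤ (sT c x + 1) * (cV M c x + 1) ^ 2 := Nat.mul_pos (by omega) (by positivity)
    nlinarith
  have hwalk := hR (cK M c x) (cC M c x) (cS M c x) (cK M c x) (sT c x) 0 (cK M c x / 2)
    (cC_closed hM x hVK) ((cS_lt hM x).trans_le hVK) hTK (by omega) (by omega) le_rfl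
  rw [hit_eq_prob hM x, ← hy] at hwalk
  have hKpos : (0 : ℚ) < cK M c x := by
    have : 0 < cK M c x := by omega
    exact_mod_cast this
  refine ⟨r, fun ω => ⟨⟨_, (hdone ω).1 _ le_rfl⟩, fun t i => ?_⟩, fun hp => ?_, fun hp => ?_⟩
  · have h2 := Nat.floor_le hb
    have h3 := (natlog_le_logb x.length).trans (hSn.log_le x.length)
    have h5 := (hdone ω).2 t i
    have h6 : (((D.run x ω t).work i).cells : ℝ) ≤
        ((e1 * (⌊|e'| * |C| * S x.length⌋₊ + Nat.log 2 (x.length + 2)) : ℕ) : ℝ) := by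
      exact_mod_cast h5
    refine h6.trans ?_
    push_cast
    calc (e1 : ℝ) * (((⌊|e'| * |C| * S x.length⌋₊ : ℕ) : ℝ) + (Nat.log 2 (x.length + 2) : ℝ))
        ≤ e1 * (|e'| * |C| * S x.length + S x.length) :=
          mul_le_mul_of_nonneg_left (add_le_add h2 h3) (Nat.cast_nonneg _)
      _ = e1 * (|e'| * |C| + 1) * S x.length := by ring
  · -- acceptance
    refine hr.2 ((hB y).1 (hwalk.1 (le_trans ?_ hp)))
    rw [div_le_iff₀ hKpos]
    have g1 : 2 * (cK M c x / 2) ≤ cK M c x := Nat.mul_div_le _ _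
    have g2 : (2 : ℚ) * ((cK M c x / 2 : ℕ) : ℚ) ≤ cK M c x := by exact_mod_cast g1
    have g3 : (12 : ℚ) ≤ cK M c x := by exact_mod_cast hK12
    linarith
  · -- rejection
    have h7 : y ∉ B := by
      refine (hB y).2 (hwalk.2 (hp.trans ?_))
      rw [le_div_iff₀ hKpos]
      have g1 : cK M c x ≤ 2 * (cK M c x / 2) + 1 := by omega
      have g2 : (cK M c x : ℚ) ≤ 2 * ((cK M c x / 2 : ℕ) : ℚ) + 1 := by exact_mod_cast g1
      have g3 : (12 : ℚ) ≤ cK M c x := by exact_mod_cast hK12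
      linarith
    cases hrr : r
    · rfl
    · exact absurd (hr.1 hrr) h7

section

variable (hV : WordSpec) (hU1 : UsimSpec) (hU2 : UsimLF) (hS : ChkSound)
  (hC : ChkComplete) (hL : ChkLF) (hDL : DecLF) (hDS : DecodeSpec) (hPr : ProbSpec)
  (hCE : CodeExists) {R : RTM} {c0 : ℕ} (hR : WalkOk R c0)
  (hRb : R.Bounded (fun n => (n + 2) ^ c0) (fun n => c0 * Nat.log 2 (n + 2)))
  {f : ℕ → ℝ} (hfn : UD.Nice f) (hfb : Fallback f)

include hV hU1 hU2 hS hC hL hDL hDS hPr hCE hR hRb hfn hfb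

/-- ONE MACHINE FOR ALL CODES; its space on the codes of `R` decides about all space bounds. -/
theorem fin2 : ∃ U : RTM, U.Deterministic ∧
    (∀ (M : RTM) (c : ℕ) (l : List ℕ),
      M.Bounded (fun n => (n + 2) ^ c) (fun n => c * Nat.log 2 (n + 2)) → UDS.IsCode M c l →
      ForCode U R c0 f M c (UDS.unary l)) ∧
    (∀ l : List ℕ, UDS.IsCode R c0 l → ∀ S : ℕ → ℝ, UDS.Nice S → (UDS.PromiseBPLIn S ↔
      ∃ e : ℝ, ∀ (x : List Bool) (ω : ℕ → Bool) (t : ℕ) (i : Fin U.tapes),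
        (((U.run (UDS.unary l ++ x) ω t).work i).cells : ℝ) ≤ e * S x.length)) ∧
    (∀ S : ℕ → ℝ, UDS.Nice S → UDS.PromiseBPLInAdvice S → UDS.PromiseBPLIn S) := by
  obtain ⟨U, hU, hall⟩ := fin1 hV hU1 hU2 hS hC hL hDL hDS hPr hR hRb hfn hfb
  have hback : ∀ l : List ℕ, UDS.IsCode R c0 l → ∀ S : ℕ → ℝ, UDS.Nice S →
      (∃ e : ℝ, ∀ (x : List Bool) (ω : ℕ → Bool) (t : ℕ) (i : Fin U.tapes),
        (((U.run (UDS.unary l ++ x) ω t).work i).cells : ℝ) ≤ e * S x.length) →
      UDS.PromiseBPLIn S := by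
    intro l hl S hSn h
    obtain ⟨A, Q, d, ⟨e, hdec⟩, hA, -⟩ := hall R c0 l hRb hl
    exact UDS.in_iff.2 (back hV hU1 hU2 hU hR hdec hA (UDS.nice_iff.1 hSn) h)
  refine ⟨U, hU, hall, fun l hl S hSn => ⟨fun h => ?_, hback l hl S hSn⟩, fun S hSn h => ?_⟩
  · obtain ⟨A, Q, d, -, -, -, -, hcond⟩ := hall R c0 l hRb hl
    obtain ⟨e, he⟩ := hcond S hSn (Or.inl h)
    exact ⟨e, fun x ω t i => (he x ω).2 t i⟩
  · obtain ⟨l, hl⟩ := hCE R c0
    obtain ⟨A, Q, d, -, -, -, -, hcond⟩ := hall R c0 l hRb hl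
    obtain ⟨e, he⟩ := hcond S hSn (Or.inr h)
    exact hback l hl S hSn ⟨e, fun x ω t i => (he x ω).2 t i⟩

end

end Vale.Agent.P313.UV
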