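import Vale.Agent.P313.DefsTS

/-!
Codes of randomized machines.
-/

namespace Vale.Agent.P313.UDS

/-- Number of states. -/
noncomputable def nSt (M : RTM) : ℕ := @Fintype.card M.State M.stateFin

/-- Number of tape symbols, plus one. -/
noncomputable def nSy (M : RTM) : ℕ := @Fintype.card M.Sym M.symFin + 1

/-- The number of a state. -/
noncomputable def stNo (M : RTM) (q : M.State) : ℕ := @Fintype.equivFin M.State M.stateFin q

open Classical in
/-- The number of a tape symbol; the blank has number `0`. -/
noncomputable def syNo (M : RTM) (a : M.Sym) : ℕ :=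
  if a = M.blank then 0 else (@Fintype.equivFin M.Sym M.symFin a : ℕ) + 1

/-- Numbers of the moves. -/
def dirNo : Dir → ℕ
  | Dir.left => 0
  | Dir.stay => 1
  | Dir.right => 2

/-- Numbers of the symbols of the input tape. -/
def inNo : InSym → ℕ
  | InSym.lmark => 0
  | InSym.rmark => 1
  | InSym.bit false => 2
  | InSym.bit true => 3

/-- Numbers of the verdicts. -/
def verNo : Option Bool → ℕ
  | none => 0
  | some false => 1
  | some true => 2

/-- The number of a situation: the state, the input symbol, the scanned tape symbols. -/
noncomputable def keyNo (M : RTM) (q : M.State) (s : InSym) (h : Fin M.tapes → M.Sym) : ℕ :=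
  stNo M q + nSt M * (inNo s + 4 * ∑ i : Fin M.tapes, syNo M (h i) * nSy M ^ (i : ℕ))

/-- A bound for the numbers of the situations. -/
noncomputable def nKey (M : RTM) : ℕ := nSt M * 4 * nSy M ^ M.tapes

/-- What the machine does in a situation when the random bit is `b` (it is used only if the state
asks for it): `i = 0` the new state, `i = 1` the move of the input head, `i = 2 + 2 j` the symbol
written on tape `j`, `i = 3 + 2 j` the move on tape `j`. -/
noncomputable def actNo (M : RTM) (b : Bool) (q : M.State) (s : InSym)
    (h : Fin M.tapes → M.Sym) (i : ℕ) : ℕ :=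
  if i = 0 then stNo M (M.trans q s h (M.coin q && b)).1
  else if i = 1 then dirNo (M.trans q s h (M.coin q && b)).2.1
  else if hj : (i - 2) / 2 < M.tapes then
    if i % 2 = 0 then syNo M ((M.trans q s h (M.coin q && b)).2.2 ⟨(i - 2) / 2, hj⟩).1
    else dirNo ((M.trans q s h (M.coin q && b)).2.2 ⟨(i - 2) / 2, hj⟩).2
  else 0

/-- The word for a list of numbers: each number in unary, followed by a zero. -/
def unary (l : List ℕ) : List Bool := l.flatMap (fun k => List.replicate k true ++ [false])

/-- The list `l` describes the machine `M` and the exponent `c` of its bounds: the number of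
tapes, of tape symbols, of states, the start state, `c`, the verdicts of the states, and the two
transition tables (for the random bits `0` and `1`), with `2 + 2 * M.tapes` numbers for every
situation. -/
def IsCode (M : RTM) (c : ℕ) (l : List ℕ) : Prop :=
  l.length = 5 + nSt M + 2 * nKey M * (2 + 2 * M.tapes) ∧
  l.getD 0 0 = M.tapes ∧ l.getD 1 0 = nSy M ∧ l.getD 2 0 = nSt M ∧
  l.getD 3 0 = stNo M M.start ∧ l.getD 4 0 = c ∧
  (∀ q : M.State, l.getD (5 + stNo M q) 0 = verNo (M.verdict q)) ∧
  ∀ (b : Bool) (q : M.State) (s : InSym) (h : Fin M.tapes → M.Sym) (i : ℕ),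
    i < 2 + 2 * M.tapes →
    l.getD (5 + nSt M + (b.toNat * nKey M + keyNo M q s h) * (2 + 2 * M.tapes) + i) 0 =
      actNo M b q s h i

end Vale.Agent.P313.UDS
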