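import Vale.Agent.P313.H463.UV.Defs

/-!
The universal machine for codes of randomized machines: the search machine.
-/

namespace Vale.Agent.P313.UV

open Finset Sel UD

/-- The least resources which are large enough. -/
def Ns (w : List Bool) : ℕ := (nW w + 2) ^ (aW w * (2 + 3 * tpW w))

theorem big_iff {w : List Bool} {N : ℕ} : Big w N ↔ Ns w ≤ N := Iff.rfl

theorem NN_eq {w : List Bool} {N : ℕ} (h : Ns w ≤ N) : NN w N = Ns w := by
  unfold NN
  exact min_eq_left (by unfold Ns at h; omega)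

theorem WW_eq {w : List Bool} {N : ℕ} (h : Ns w ≤ N) : WW w N = (nW w + 2) ^ aW w := by
  unfold WW
  refine min_eq_left (le_trans ?_ (h.trans (Nat.le_succ N)))
  exact Nat.pow_le_pow_right (by omega) (by nlinarith [Nat.zero_le (aW w * tpW w)])

theorem TT_eq {w : List Bool} {N : ℕ} (h : Ns w ≤ N) : TT w N = (nW w + 2) ^ cW w + 1 := by
  unfold TT
  congr 1
  refine min_eq_left (le_trans ?_ (h.trans (Nat.le_succ N)))
  refine Nat.pow_le_pow_right (by omega) ?_
  have : cW w ≤ aW w := by unfold aW; omega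
  nlinarith [Nat.zero_le (aW w * tpW w)]

theorem VV_eq {w : List Bool} {N : ℕ} (h : Ns w ≤ N) : VV w N = Ns w + 3 := by
  unfold VV; rw [NN_eq h]

theorem TT_st {w : List Bool} {N : ℕ} (h : Ns w ≤ N) : TT w N = TT w (Ns w) := by
  rw [TT_eq h, TT_eq le_rfl]

theorem VV_st {w : List Bool} {N : ℕ} (h : Ns w ≤ N) : VV w N = VV w (Ns w) := by
  rw [VV_eq h, VV_eq le_rfl]

theorem KK_st {w : List Bool} {N : ℕ} (h : Ns w ≤ N) : KK w N = KK w (Ns w) := by
  unfold KK; rw [TT_st h, VV_st h]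

theorem SS_st {w : List Bool} {N : ℕ} (h : Ns w ≤ N) : SS w N = SS w (Ns w) := by
  unfold SS; rw [NN_eq h, NN_eq le_rfl]

theorem CC_st {w : List Bool} {N : ℕ} (h : Ns w ≤ N) : CC w N = CC w (Ns w) := by
  funext v b
  unfold CC; rw [NN_eq h, NN_eq le_rfl, WW_eq h, WW_eq le_rfl]

theorem VV_pos (w : List Bool) (N : ℕ) : 3 ≤ VV w N := by unfold VV; omega

theorem VV_le_KK (w : List Bool) (N : ℕ) : VV w N ≤ KK w N := by
  unfold KK
  nlinarith [Nat.zero_le (TT w N * (VV w N + 1) ^ 2), Nat.zero_le (VV w N ^ 2)]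

theorem TT_le_KK (w : List Bool) (N : ℕ) : TT w N ≤ KK w N := by
  unfold KK
  have h1 : 1 ≤ (VV w N + 1) ^ 2 := Nat.one_le_pow _ _ (by omega)
  nlinarith [Nat.mul_le_mul_left (12 * (TT w N + 1)) h1]

theorem KK_pos (w : List Bool) (N : ℕ) : 0 < KK w N := by
  have := VV_le_KK w N
  have := VV_pos w N
  omega

theorem SS_lt (w : List Bool) (N : ℕ) : SS w N < VV w N := by
  unfold SS VV
  have := min_le_right (stW w) (NN w N)
  omega

theorem CC_closed (w : List Bool) (N : ℕ) {n : ℕ} (hn : VV w N ≤ n) :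
    ∀ v < n, ∀ b < 2, CC w N v b < n := by
  intro v hv b _
  unfold VV at hn
  unfold CC uch
  split_ifs <;> omega

/-! ### Queries -/

/-- The queries for the word `w`. -/
def Qu (w : List Bool) : Set (List Bool) :=
  {y | ∃ t ≤ TT w (Ns w), ∃ u < VV w (Ns w), ∃ j < KK w (Ns w),
    y = qw (KK w (Ns w)) (CC w (Ns w)) (SS w (Ns w)) (KK w (Ns w)) t u j}

/-- The query about acceptance. -/
def yF (w : List Bool) : List Bool :=
  qw (KK w (Ns w)) (CC w (Ns w)) (SS w (Ns w)) (KK w (Ns w)) (TT w (Ns w)) 0 (KK w (Ns w) / 2)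

theorem Qu_len (hV : WordSpec) {w y : List Bool} (hy : y ∈ Qu w) :
    y.length = wlen (KK w (Ns w)) := by
  obtain ⟨t, _, u, _, j, _, rfl⟩ := hy
  exact hV.1 _ _

/-! ### Everything in `LF` -/

section lf

variable (hDL : DecLF)

include hDL

theorem lf_rowsU {k : ℕ} {N t u j r : Fn k} (hN : LF N) (ht : LF t) (hu : LF u) (hj : LF j)
    (hr : LF r) :
    LF (fun w a => rows (CC w (N w a)) (SS w (N w a)) (KK w (N w a)) (t w a) (u w a) (j w a)
      (r w a)) := by
  unfold rows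
  obtain ⟨-, -, hK, hS, -, hC⟩ := hDL k N (fun w a => (r w a - 5) / 2)
    (fun w a => (r w a - 5) % 2) hN ((hr.sub (LF.const 5)).div (LF.const 2))
    ((hr.sub (LF.const 5)).mod (LF.const 2))
  exact LF.ite (LFP.eq hr (LF.const 0)) hS
    (LF.ite (LFP.eq hr (LF.const 1)) ht (LF.ite (LFP.eq hr (LF.const 2)) hu
      (LF.ite (LFP.eq hr (LF.const 3)) hj (LF.ite (LFP.eq hr (LF.const 4)) hK hC))))

theorem lf_KK {k : ℕ} {N : Fn k} (hN : LF N) : LF (fun w a => KK w (N w a)) :=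
  (hDL k N N N hN hN hN).2.2.1

theorem lf_TT {k : ℕ} {N : Fn k} (hN : LF N) : LF (fun w a => TT w (N w a)) :=
  (hDL k N N N hN hN hN).1

theorem lf_VV {k : ℕ} {N : Fn k} (hN : LF N) : LF (fun w a => VV w (N w a)) :=
  (hDL k N N N hN hN hN).2.1

theorem lf_SS {k : ℕ} {N : Fn k} (hN : LF N) : LF (fun w a => SS w (N w a)) :=
  (hDL k N N N hN hN hN).2.2.2.1

theorem lfp_Big {k : ℕ} {N : Fn k} (hN : LF N) : LFP (fun w a => Big w (N w a)) :=
  (hDL k N N N hN hN hN).2.2.2.2.1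

/-- The symbols of a query word. -/
theorem lf_qsyU (hV : WordSpec) {k : ℕ} {N t u j p : Fn k} (hN : LF N) (ht : LF t) (hu : LF u)
    (hj : LF j) (hp : LF p) :
    LF (fun w a => vsy (KK w (N w a))
      (rows (CC w (N w a)) (SS w (N w a)) (KK w (N w a)) (t w a) (u w a) (j w a)) (p w a)) := by
  have h1 := hV.2.2.1 k (fun w a => KK w (N w a)) p
    (fun w b => rows (CC w (N w (Fin.tail b))) (SS w (N w (Fin.tail b))) (KK w (N w (Fin.tail b)))
      (t w (Fin.tail b)) (u w (Fin.tail b)) (j w (Fin.tail b)) (b 0)) (lf_KK hDL hN) hp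
    (lf_rowsU hDL hN.weak ht.weak hu.weak hj.weak (LF.proj 0))
  refine h1.congr (fun w a => ?_)
  simp only [Fin.tail_cons, Fin.cons_zero]

end lf

/-- The answer to a query by machine `idx` with resources `N`. -/
noncomputable def qaU (w : List Bool) (N idx t u j : ℕ) : ℕ :=
  usim (xsy (dgi N idx 9) (dgi N idx 8)
      (vsy (KK w N) (rows (CC w N) (SS w N) (KK w N) t u j)))
    (xlen (dgi N idx 9) (wlen (KK w N))) (ipar N idx) N

/-- The check of machine `idx`. -/
def CkU (w : List Bool) (N idx : ℕ) : Prop :=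
  Chk (qaU w N idx) (CC w N) (VV w N) (SS w N) (TT w N) (KK w N)

theorem lf_qaU (hDL : DecLF) (hV : WordSpec) (hU : UsimLF) {k : ℕ} {N idx t u j : Fn k}
    (hN : LF N) (hi : LF idx) (ht : LF t) (hu : LF u) (hj : LF j) :
    LF (fun w a => qaU w (N w a) (idx w a) (t w a) (u w a) (j w a)) := by
  have h0 : LF (fun w b => vsy (KK w (N w (Fin.tail (Fin.tail b))))
      (rows (CC w (N w (Fin.tail (Fin.tail b)))) (SS w (N w (Fin.tail (Fin.tail b))))
        (KK w (N w (Fin.tail (Fin.tail b)))) (t w (Fin.tail (Fin.tail b)))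
        (u w (Fin.tail (Fin.tail b))) (j w (Fin.tail (Fin.tail b)))) (b 0) : Fn (k + 2)) :=
    lf_qsyU hDL hV hN.weak.weak ht.weak.weak hu.weak.weak hj.weak.weak (LF.proj 0)
  have h2 := lf_xsy (k := k + 1) (l := fun x b => dgi (N x (Fin.tail b)) (idx x (Fin.tail b)) 9)
    (a := fun x b => dgi (N x (Fin.tail b)) (idx x (Fin.tail b)) 8) (p := fun _ b => b 0)
    (lf_dgi hN.weak hi.weak 9) (lf_dgi hN.weak hi.weak 8) (LF.proj 0) h0
  have h1 := hU k _ (fun w a => xlen (dgi (N w a) (idx w a) 9) (wlen (KK w (N w a)))) N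
    (fun i x a => ipar (N x a) (idx x a) i) h2
    (lf_xlen (lf_dgi hN hi 9) (lf_wlen (lf_KK hDL hN))) hN (fun i => lf_ipar hN hi i)
  refine h1.congr (fun w a => ?_)
  simp only [Fin.tail_cons, Fin.cons_zero]
  rfl

/-- The two tests: some machine passes; some machine passes and says yes. -/
theorem lfp_ckU (hDL : DecLF) (hV : WordSpec) (hU : UsimLF) (hL : ChkLF) :
    LFP (fun w a => ¬ ∀ idx < (a 0 + 1) ^ 10, ¬ CkU w (a 0) idx :
      List Bool → (Fin 1 → ℕ) → Prop) ∧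
    LFP (fun w a => ¬ ∀ idx < (a 0 + 1) ^ 10, ¬ (CkU w (a 0) idx ∧
      KK w (a 0) ≤ 2 * est (qaU w (a 0) idx) (KK w (a 0)) (TT w (a 0)) 0) :
      List Bool → (Fin 1 → ℕ) → Prop) := by
  -- variables: `b 0 = idx`, `b 1 = N`
  have hq : LF (fun w b => qaU w (b 4) (b 3) (b 2) (b 1) (b 0) : Fn 5) :=
    lf_qaU hDL hV hU (LF.proj 4) (LF.proj 3) (LF.proj 2) (LF.proj 1) (LF.proj 0)
  have hc : LF (fun w b => CC w (b 3) (b 1) (b 0) : Fn 4) :=
    (hDL 4 (fun _ b => b 3) (fun _ b => b 1) (fun _ b => b 0) (LF.proj 3) (LF.proj 1)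
      (LF.proj 0)).2.2.2.2.2
  have hN2 : LF (fun _ b => b 1 : Fn 2) := LF.proj 1
  obtain ⟨h1, h2⟩ := hL 2 (fun w b => qaU w (b 4) (b 3) (b 2) (b 1) (b 0))
    (fun w b => CC w (b 3) (b 1) (b 0)) (fun w b => VV w (b 1)) (fun w b => SS w (b 1))
    (fun w b => TT w (b 1)) (fun w b => KK w (b 1)) hq hc (lf_VV hDL hN2) (lf_SS hDL hN2)
    (lf_TT hDL hN2) (lf_KK hDL hN2)
  have e1 : ∀ (w : List Bool) (a : Fin 2 → ℕ),
      (fun t u j => qaU w ((Fin.cons j (Fin.cons u (Fin.cons t a)) : Fin 5 → ℕ) 4)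
        ((Fin.cons j (Fin.cons u (Fin.cons t a)) : Fin 5 → ℕ) 3)
        ((Fin.cons j (Fin.cons u (Fin.cons t a)) : Fin 5 → ℕ) 2)
        ((Fin.cons j (Fin.cons u (Fin.cons t a)) : Fin 5 → ℕ) 1)
        ((Fin.cons j (Fin.cons u (Fin.cons t a)) : Fin 5 → ℕ) 0)) = qaU w (a 1) (a 0) :=
    fun w a => rfl
  have e2 : ∀ (w : List Bool) (a : Fin 2 → ℕ),
      (fun v b => CC w ((Fin.cons b (Fin.cons v a) : Fin 4 → ℕ) 3)
        ((Fin.cons b (Fin.cons v a) : Fin 4 → ℕ) 1)
        ((Fin.cons b (Fin.cons v a) : Fin 4 → ℕ) 0)) = CC w (a 1) := fun w a => rfl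
  have h3 : LFP (fun w b => CkU w (b 1) (b 0) : List Bool → (Fin 2 → ℕ) → Prop) := by
    refine h1.congr (fun w a => ?_)
    rw [e1, e2]
    rfl
  have h4 : LF (fun w b => est (qaU w (b 1) (b 0)) (KK w (b 1)) (TT w (b 1)) 0 : Fn 2) := by
    refine h2.congr (fun w a => ?_)
    rw [e1]
  have h5 : LFP (fun w b => KK w (b 1) ≤ 2 * est (qaU w (b 1) (b 0)) (KK w (b 1)) (TT w (b 1)) 0 :
      List Bool → (Fin 2 → ℕ) → Prop) :=
    LFP.le (lf_KK hDL hN2) ((LF.const 2).mul h4)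
  have hn : LF (fun _ a => (a 0 + 1) ^ 10 : Fn 1) := (LF.proj 0).succ.powConst 10
  refine ⟨((LFP.all (k := 1) h3.not hn).not).congr (fun w a => ?_),
    ((LFP.all (k := 1) (h3.and h5).not hn).not).congr (fun w a => ?_)⟩
  · exact Iff.rfl
  · exact Iff.rfl

/-! ### Simulation with more resources -/

theorem usim_more {D : RTM} {par : ℕ → ℕ} {e : ℕ} (hS : SimOk D par e) {y : List Bool}
    {r : Bool} {s l N : ℕ} (hy : HaltsIn D y r s) (hl : y.length ≤ l) (hN : bN e l s ≤ N) :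
    usim (fun p => syc (inSym y p)) y.length (wpar par (bW e l s)) N = cd r := by
  obtain ⟨g1, g2, g3⟩ := bN_ge e l s
  obtain ⟨t0, h4⟩ := (hy (fun _ => false)).1
  refine (hS.2 y _ t0 r h4 _ _ (g1.trans hN)).2 s (hy (fun _ => false)).2 ?_ (g3.trans hN)
  unfold bW
  omega

theorem pg_more {D : RTM} {par : ℕ → ℕ} {e : ℕ} (hS : SimOk D par e) {y : List Bool}
    {r : Bool} {s N : ℕ} (hy : HaltsIn D y r s) (hN : bN e y.length s ≤ N) :
    Pg (fun p => syc (inSym y p)) y.length par e N := by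
  obtain ⟨g1, g2, g3⟩ := bN_ge e y.length s
  refine ⟨g1.trans hN, fun h => ?_⟩
  have := h (bW e y.length s) (by omega)
  rw [usim_more hS hy le_rfl hN] at this
  exact cd_ne_zero r this

/-- A bound for the lengths of the queries. -/
theorem wlen_Ns : ∃ d : ℕ, ∀ w : List Bool,
    wlen (KK w (Ns w)) ≤ (w.length + Ns w + 2) ^ d := by
  have h1 : LF (fun _ a => wlen (12 * (a 0 + 1 + 1) * (a 0 + 3 + 1) ^ 2) : Fn 1) := by
    refine lf_wlen ?_
    exact ((LF.const 12).mul (((LF.proj 0).add (LF.const 1)).add (LF.const 1))).mul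
      ((((LF.proj 0).add (LF.const 3)).add (LF.const 1)).powConst 2)
  obtain ⟨d, hd⟩ := h1.pb
  refine ⟨d, fun w => ?_⟩
  have h2 := hd w (fun _ => Ns w)
  have h3 : mu w (fun _ : Fin 1 => Ns w) = w.length + Ns w + 2 := by simp [mu]
  rw [h3] at h2
  refine le_trans ?_ h2
  change wlen (KK w (Ns w)) ≤ wlen (12 * (Ns w + 1 + 1) * (Ns w + 3 + 1) ^ 2)
  have h4 : TT w (Ns w) ≤ Ns w + 1 := by
    rw [TT_eq le_rfl]
    have : (nW w + 2) ^ cW w ≤ Ns w := by
      unfold Ns
      refine Nat.pow_le_pow_right (by omega) ?_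
      have : cW w ≤ aW w := by unfold aW; omega
      nlinarith [Nat.zero_le (aW w * tpW w)]
    omega
  have h5 : KK w (Ns w) ≤ 12 * (Ns w + 1 + 1) * (Ns w + 3 + 1) ^ 2 := by
    unfold KK
    rw [VV_eq le_rfl]
    exact Nat.mul_le_mul_right _ (Nat.mul_le_mul_left _ (by omega))
  generalize 12 * (Ns w + 1 + 1) * (Ns w + 3 + 1) ^ 2 = z at h5 ⊢
  unfold wlen
  have h6 := Nat.mul_le_mul (show 5 + 2 * KK w (Ns w) ≤ 5 + 2 * z by omega) h5
  omega

/-- THE UNIVERSAL MACHINE. -/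
theorem core3 (hV : WordSpec) (hU1 : UsimSpec) (hU2 : UsimLF) (hS : ChkSound)
    (hC : ChkComplete) (hL : ChkLF) (hDL : DecLF) {R : RTM} {c0 : ℕ} (hR : WalkOk R c0)
    {D4 : RTM} (hD4 : D4.Deterministic) :
    ∃ (U : RTM), U.Deterministic ∧ ∃ rw : List Bool → Bool,
      (∀ (w : List Bool) (p : ℚ),
        hit (toB (CC w (Ns w))) 0 (TT w (Ns w)) (SS w (Ns w)) = p →
        (∃ (r : Bool) (s : ℕ), HaltsIn D4 (yF w) r s ∧ (2 / 3 ≤ p → r = true) ∧
          (p ≤ 1 / 3 → r = false)) →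
        (2 / 3 ≤ p → rw w = true) ∧ (p ≤ 1 / 3 → rw w = false)) ∧
      (∃ e : ℕ, ∀ w r s, HaltsIn D4 (yF w) r s →
        DoneIn U w (rw w) (e * (s + Nat.log 2 (w.length + Ns w + 2)))) ∧
      (∀ D' : RTM, D'.Deterministic → ∃ e : ℕ, ∀ w s l a, l ≤ s + 1 → a < 2 ^ s →
        (∀ y ∈ Qu w, SolvesFor D' R c0 y (xw l a y) s) →
          DoneIn U w (rw w) (e * (s + Nat.log 2 (w.length + Ns w + 2)))) := by
  classical
  obtain ⟨par4, e4, hs4⟩ := hU1 D4 hD4
  have hsim4 : SimOk D4 par4 e4 := hs4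
  -- the tests
  have hK1 : LF (fun w a => KK w (a 0) : Fn 1) := lf_KK hDL (LF.proj 0)
  have hK2 : LF (fun w b => KK w (b 1) : Fn 2) := lf_KK hDL (LF.proj 1)
  have hT2 : LF (fun w b => TT w (b 1) : Fn 2) := lf_TT hDL (LF.proj 1)
  have hsy : LF (fun w b => vsy (KK w (b 1)) (rows (CC w (b 1)) (SS w (b 1)) (KK w (b 1))
      (TT w (b 1)) 0 (KK w (b 1) / 2)) (b 0) : Fn 2) :=
    lf_qsyU hDL hV (N := fun _ b => b 1) (t := fun w b => TT w (b 1)) (u := fun _ _ => 0)
      (j := fun w b => KK w (b 1) / 2) (p := fun _ b => b 0)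
      (LF.proj 1) hT2 (LF.const 0) (hK2.div (LF.const 2)) (LF.proj 0)
  obtain ⟨hpg, -⟩ := lfp_pg hU2 (k := 1)
    (sy := fun w b => vsy (KK w (b 1)) (rows (CC w (b 1)) (SS w (b 1)) (KK w (b 1))
      (TT w (b 1)) 0 (KK w (b 1) / 2)) (b 0))
    (n := fun w a => wlen (KK w (a 0))) (N := fun _ a => a 0) par4 e4 hsy
    (lf_wlen hK1) (LF.proj 0) 0
  obtain ⟨-, hpf⟩ := lfp_pg hU2 (k := 1)
    (sy := fun w b => vsy (KK w (b 1)) (rows (CC w (b 1)) (SS w (b 1)) (KK w (b 1))
      (TT w (b 1)) 0 (KK w (b 1) / 2)) (b 0))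
    (n := fun w a => wlen (KK w (a 0))) (N := fun _ a => a 0) par4 e4 hsy
    (lf_wlen hK1) (LF.proj 0) 2
  obtain ⟨hcg, hcf⟩ := lfp_ckU hDL hV hU2 hL
  have hbg : LFP (fun w a => Big w (a 0) : List Bool → (Fin 1 → ℕ) → Prop) :=
    lfp_Big hDL (LF.proj 0)
  set G : List Bool → (Fin 1 → ℕ) → Prop := fun w a => Big w (a 0) ∧
    (Pg (vsy (KK w (a 0)) (rows (CC w (a 0)) (SS w (a 0)) (KK w (a 0)) (TT w (a 0)) 0
      (KK w (a 0) / 2))) (wlen (KK w (a 0))) par4 e4 (a 0) ∨
      ¬ ∀ idx < (a 0 + 1) ^ 10, ¬ CkU w (a 0) idx) with hG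
  set H : List Bool → (Fin 1 → ℕ) → Prop := fun w a =>
    Pf (vsy (KK w (a 0)) (rows (CC w (a 0)) (SS w (a 0)) (KK w (a 0)) (TT w (a 0)) 0
      (KK w (a 0) / 2))) (wlen (KK w (a 0))) par4 e4 (a 0) ∨
      ¬ ∀ idx < (a 0 + 1) ^ 10, ¬ (CkU w (a 0) idx ∧
        KK w (a 0) ≤ 2 * est (qaU w (a 0) idx) (KK w (a 0)) (TT w (a 0)) 0) with hH
  have hG' : LF (fun w a => ind (G w a) : Fn 1) := by
    refine LFP.congr (hbg.and (hpg.or hcg)) (fun w a => ?_)
    exact Iff.rfl
  have hH' : LF (fun w a => ind (H w a) : Fn 1) := by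
    refine LFP.congr (hpf.or hcf) (fun w a => ?_)
    exact Iff.rfl
  obtain ⟨U, e, hU, hsh⟩ := shell' hH' hG'
  have hiG : ∀ w N, ind (G w (fun _ => N)) ≠ 0 ↔ G w (fun _ => N) := fun w N => ind_ne_zero
  -- the symbols of the query about acceptance
  have hyl : ∀ w, (yF w).length = wlen (KK w (Ns w)) := fun w => hV.1 _ _
  have hys : ∀ w, (fun p => syc (inSym (yF w) p)) = vsy (KK w (Ns w)) (rows (CC w (Ns w))
      (SS w (Ns w)) (KK w (Ns w)) (TT w (Ns w)) 0 (KK w (Ns w) / 2)) := by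
    intro w
    funext p
    exact hV.2.1 _ _ _
  have hPg : ∀ w N, Ns w ≤ N → (Pg (vsy (KK w N) (rows (CC w N) (SS w N) (KK w N) (TT w N) 0
      (KK w N / 2))) (wlen (KK w N)) par4 e4 N ↔
      Pg (fun p => syc (inSym (yF w) p)) (yF w).length par4 e4 N) := by
    intro w N h
    rw [hys, hyl, KK_st h, CC_st h, SS_st h, TT_st h]
  have hPf : ∀ w N, Ns w ≤ N → (Pf (vsy (KK w N) (rows (CC w N) (SS w N) (KK w N) (TT w N) 0
      (KK w N / 2))) (wlen (KK w N)) par4 e4 N ↔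
      Pf (fun p => syc (inSym (yF w) p)) (yF w).length par4 e4 N) := by
    intro w N h
    rw [hys, hyl, KK_st h, CC_st h, SS_st h, TT_st h]
  -- the result
  let N1 : List Bool → ℕ := fun w => if h : ∃ N, G w (fun _ => N) then Nat.find h else 0
  have hN1 : ∀ w, (∃ N, G w (fun _ => N)) → G w (fun _ => N1 w) := fun w h => by
    show G w (fun _ => if h : ∃ N, G w (fun _ => N) then Nat.find h else 0)
    rw [dif_pos h]
    exact Nat.find_spec h
  have hN1' : ∀ w m, G w (fun _ => m) → N1 w ≤ m := fun w m hm => by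
    show (if h : ∃ N, G w (fun _ => N) then Nat.find h else 0) ≤ m
    rw [dif_pos ⟨m, hm⟩]
    exact Nat.find_min' _ hm
  have hdone : ∀ w, (∃ N, G w (fun _ => N)) → DoneIn U w (decide (H w (fun _ => N1 w)))
      (e * Nat.log 2 (w.length + N1 w + 2) + e) := by
    intro w hex
    have h5 := hsh w (N1 w) ((hiG w _).2 (hN1 w hex)) (fun m hm => hN1' w m ((hiG w m).1 hm))
    have e5 : (ind (H w (fun _ => N1 w)) ≠ 0) = H w (fun _ => N1 w) :=
      propext ind_ne_zero
    simpa only [e5] using h5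
  -- the bound by given resources
  have hbd : ∃ C : ℕ, ∀ (w : List Bool) (N B : ℕ), G w (fun _ => N) →
      Nat.log 2 (w.length + N + 2) ≤ B →
      DoneIn U w (decide (H w (fun _ => N1 w))) (C * B + C) := by
    refine ⟨e, fun w N B hN hB => (hdone w ⟨N, hN⟩).mono ?_⟩
    have h5 := hN1' w N hN
    have h6 : Nat.log 2 (w.length + N1 w + 2) ≤ Nat.log 2 (w.length + N + 2) :=
      Nat.log_mono_right (by omega)
    exact Nat.add_le_add_right (Nat.mul_le_mul_left e (h6.trans hB)) e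
  -- soundness of the check
  have hest : ∀ w N idx, CkU w N idx →
      |(est (qaU w N idx) (KK w N) (TT w N) 0 : ℚ) -
        KK w N * hit (toB (CC w N)) 0 (TT w N) (SS w N)| ≤ KK w N / 12 := by
    intro w N idx h
    exact hS _ _ _ _ _ _ h (CC_closed w N le_rfl) (SS_lt w N) le_rfl 0
      (by have := VV_pos w N; omega)
  have hL1 : ∀ n : ℕ, 1 ≤ Nat.log 2 (n + 2) := fun n =>
    Nat.log_pos (by norm_num) (by omega)
  obtain ⟨d, hd⟩ := wlen_Ns
  refine ⟨U, hU, fun w => decide (H w (fun _ => N1 w)), fun w p hp hF => ?_, ?_, ?_⟩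
  · -- right answers
    obtain ⟨r, s, hr1, hr2, hr3⟩ := hF
    have hex : ∃ N, G w (fun _ => N) := by
      refine ⟨Ns w + bN e4 (yF w).length s, (Nat.le_add_right _ _ : Ns w ≤ _), Or.inl ?_⟩
      rw [hPg w _ (Nat.le_add_right _ _)]
      exact pg_more hsim4 hr1 (Nat.le_add_left _ _)
    obtain ⟨hb, hor⟩ := hN1 w hex
    have hb' : Ns w ≤ N1 w := hb
    have hK : (0 : ℚ) < KK w (N1 w) := by exact_mod_cast KK_pos w (N1 w)
    have hpN : hit (toB (CC w (N1 w))) 0 (TT w (N1 w)) (SS w (N1 w)) = p := by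
      rw [CC_st hb', TT_st hb', SS_st hb']
      exact hp
    refine ⟨fun h23 => ?_, fun h13 => ?_⟩
    · rw [decide_eq_true_eq]
      rcases hor with h5 | h5
      · left
        rw [hPg w _ hb'] at h5
        rw [hPf w _ hb']
        exact pg_sound hsim4 hr1 h5 (hr2 h23)
      · right
        push Not at h5
        obtain ⟨idx, hidx, hck⟩ := h5
        refine fun h => h idx hidx ⟨hck, ?_⟩
        have h6 := abs_le.1 (hest w _ idx hck)
        rw [hpN] at h6
        have h8 : (KK w (N1 w) : ℚ) * (2 / 3) ≤ KK w (N1 w) * p :=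
          mul_le_mul_of_nonneg_left h23 hK.le
        have h9 : (KK w (N1 w) : ℚ) ≤ 2 * est (qaU w (N1 w) idx) (KK w (N1 w))
            (TT w (N1 w)) 0 := by
          linarith [h6.1]
        exact_mod_cast h9
    · rw [decide_eq_false_iff_not]
      rintro (h5 | h5)
      · have h5' : Pf (vsy (KK w (N1 w)) (rows (CC w (N1 w)) (SS w (N1 w)) (KK w (N1 w))
            (TT w (N1 w)) 0 (KK w (N1 w) / 2))) (wlen (KK w (N1 w))) par4 e4 (N1 w) := h5
        rw [hPf w _ hb'] at h5'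
        have := pf_sound hsim4 hr1 h5'
        rw [hr3 h13] at this
        exact absurd this (by simp)
      · push Not at h5
        obtain ⟨idx, hidx, hck, hle⟩ := h5
        have h6 := abs_le.1 (hest w _ idx hck)
        rw [hpN] at h6
        have h8 : (KK w (N1 w) : ℚ) * p ≤ KK w (N1 w) * (1 / 3) :=
          mul_le_mul_of_nonneg_left h13 hK.le
        have h9 : (KK w (N1 w) : ℚ) ≤ 2 * est (qaU w (N1 w) idx) (KK w (N1 w))
            (TT w (N1 w)) 0 := by
          exact_mod_cast hle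
        linarith [h6.2]
  · -- the bound by the fallback
    obtain ⟨C, hC1⟩ := hbd
    obtain ⟨C2, hC2⟩ := budget e4
    refine ⟨C * (C2 * (2 * d + 4) + C2 + 1) + C, fun w r s hx => ?_⟩
    have h4 := hC2 (w.length + Ns w) (yF w).length s
    have hlog : Nat.log 2 (w.length + (Ns w + bN e4 (yF w).length s) + 2) ≤
        C2 * (s + Nat.log 2 (w.length + Ns w + (yF w).length + 2)) + C2 := by
      rw [← add_assoc]
      exact h4
    have hG1 : G w (fun _ => Ns w + bN e4 (yF w).length s) := by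
      refine ⟨(Nat.le_add_right _ _ : Ns w ≤ _), Or.inl ?_⟩
      rw [hPg w _ (Nat.le_add_right _ _)]
      exact pg_more hsim4 hx (Nat.le_add_left _ _)
    have h5 := hC1 w _ _ hG1 hlog
    refine h5.mono ?_
    have h6 := log_le_of_pow (hd w)
    rw [← hyl] at h6
    have h7 := hL1 (w.length + Ns w)
    generalize Nat.log 2 (w.length + Ns w + 2) = L at h6 h7 ⊢
    generalize Nat.log 2 (w.length + Ns w + (yF w).length + 2) = L' at h6 ⊢
    have h8 : C2 * (s + L') + C2 ≤ (C2 * (2 * d + 4) + C2 + 1) * (s + L) := by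
      have h9 : C2 * L' ≤ C2 * ((2 * d + 4) * L) := Nat.mul_le_mul_left _ h6
      nlinarith [Nat.zero_le (C2 * d * s), Nat.zero_le (C2 * s), Nat.mul_le_mul_left C2 h7]
    have h9 := Nat.mul_le_mul_left C h8
    nlinarith
  · -- optimality
    intro D' hD'
    obtain ⟨par, e', hs'⟩ := hU1 D' hD'
    have hsim : SimOk D' par (e' + 2) := SimOk.mono (e := e') hs' (by omega)
    obtain ⟨C, hC1⟩ := hbd
    obtain ⟨C2, hC2⟩ := budget (e' + 2)
    refine ⟨C * (C2 * (2 * d + 4) + 3 * C2) + C, fun w s l a hls has hq => ?_⟩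
    set m := wlen (KK w (Ns w)) with hm
    set N0 := Ns w + bN (e' + 2) (m + (2 * s + 1)) s with hN0
    set W := bW (e' + 2) (m + (2 * s + 1)) s with hW
    obtain ⟨g1, g2, g3⟩ := bN_ge (e' + 2) (m + (2 * s + 1)) s
    have hbig : Ns w ≤ N0 := Nat.le_add_right _ _
    have hbN : bN (e' + 2) (m + (2 * s + 1)) s ≤ N0 := Nat.le_add_left _ _
    have hpow : 2 ^ (s + 1) ≤ N0 := by
      have g4 : 2 ^ (s + 1) ≤ (e' + 2) ^ (s + 1) := Nat.pow_le_pow_left (by omega) _
      have g5 : (e' + 2) ^ (s + 1) ≤ W := by rw [hW]; unfold bW; omega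
      omega
    have haN : a ≤ N0 := by
      have : 2 ^ s ≤ 2 ^ (s + 1) := Nat.pow_le_pow_right (by norm_num) (by omega)
      omega
    have hlN : l ≤ N0 := by
      have : s + 1 < 2 ^ (s + 1) := Nat.lt_two_pow_self
      omega
    set p := adp (wpar par W) l a with hp
    have hpN : ∀ i, p i ≤ N0 := by
      intro i
      rw [hp]
      unfold adp wpar
      split_ifs
      · exact haN
      · exact hlN
      · exact g2.trans hbN
      · exact ((hsim.1 i).trans g1).trans hbN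
    have hGx : G w (fun _ => N0) := by
      refine ⟨hbig, Or.inr (fun h => h (pidx2 N0 p) (pidx2_lt _ _) ?_)⟩
      have hd8 : dgi N0 (pidx2 N0 p) 8 = a := by
        rw [dgi_pidx2 (by norm_num) (hpN 8), hp]; rfl
      have hd9 : dgi N0 (pidx2 N0 p) 9 = l := by
        rw [dgi_pidx2 (by norm_num) (hpN 9), hp]; rfl
      have hans : ∀ t ≤ TT w N0, ∀ u < VV w N0, ∀ j < KK w N0,
          (((j : ℚ) + 1) / KK w N0 ≤ hit (toB (CC w N0)) u t (SS w N0) →
            qaU w N0 (pidx2 N0 p) t u j = 2) ∧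
          (hit (toB (CC w N0)) u t (SS w N0) ≤ (j : ℚ) / KK w N0 →
            qaU w N0 (pidx2 N0 p) t u j = 1) := by
        intro t ht u hu j hj
        have hqaU : qaU w N0 (pidx2 N0 p) t u j =
            usim (xsy l a (vsy (KK w (Ns w)) (rows (CC w (Ns w)) (SS w (Ns w)) (KK w (Ns w))
              t u j))) (xlen l m) (ipar N0 (pidx2 N0 p)) N0 := by
          unfold qaU
          rw [hd8, hd9, KK_st hbig, CC_st hbig, SS_st hbig]
        rw [TT_st hbig] at ht
        rw [VV_st hbig] at hu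
        rw [KK_st hbig] at hj
        rw [hqaU, KK_st hbig, CC_st hbig, SS_st hbig]
        set y := qw (KK w (Ns w)) (CC w (Ns w)) (SS w (Ns w)) (KK w (Ns w)) t u j with hy
        have hmem : y ∈ Qu w := ⟨t, ht, u, hu, j, hj, rfl⟩
        obtain ⟨r, hr1, hr2, hr3⟩ := hq _ hmem
        have hlen := Qu_len hV hmem
        have hVK := VV_le_KK w (Ns w)
        have hTK := TT_le_KK w (Ns w)
        have hwalk := hR (KK w (Ns w)) (CC w (Ns w)) (SS w (Ns w)) (KK w (Ns w)) t u j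
          (CC_closed w (Ns w) hVK) ((SS_lt w (Ns w)).trans_le hVK) (ht.trans hTK)
          (hu.trans_le hVK) hj le_rfl
        rw [← hy] at hwalk
        have hqa : usim (xsy l a (vsy (KK w (Ns w)) (rows (CC w (Ns w)) (SS w (Ns w))
            (KK w (Ns w)) t u j))) (xlen l m) (ipar N0 (pidx2 N0 p)) N0 = cd r := by
          have hxl : (xw l a y).length ≤ m + (2 * s + 1) := by
            rw [xlen_eq, hlen, ← hm]
            unfold xlen
            split_ifs <;> omega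
          have h5 := usim_more hsim hr1 hxl hbN
          have e5 : (fun p => syc (inSym (xw l a y) p)) = xsy l a (vsy (KK w (Ns w))
              (rows (CC w (Ns w)) (SS w (Ns w)) (KK w (Ns w)) t u j)) := by
            funext q
            rw [xsy_eq]
            congr 1
            funext q
            exact hV.2.1 _ _ _
          rw [e5, xlen_eq, hlen, ← hm] at h5
          rw [← h5]
          refine usim_congr (fun i hi => ?_)
          unfold ipar
          rw [if_pos hi]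
          have := dgi_pidx2 (N := N0) (p := p) (i := i) (by omega) (hpN i)
          unfold dgi at this
          rw [this, hp]
          unfold adp
          rw [if_neg (by omega), if_neg (by omega)]
        rw [hqa]
        refine ⟨fun h => ?_, fun h => ?_⟩
        · rw [hr2 (hwalk.1 h)]; rfl
        · rw [hr3 (hwalk.2 h)]; rfl
      exact hC _ _ _ _ _ _ (CC_closed w N0 le_rfl) (SS_lt w N0) (KK_pos w N0) hans
    have h4 := hC2 (w.length + Ns w) (m + (2 * s + 1)) s
    have hlog : Nat.log 2 (w.length + N0 + 2) ≤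
        C2 * (s + Nat.log 2 (w.length + Ns w + (m + (2 * s + 1)) + 2)) + C2 := by
      rw [hN0, ← add_assoc]
      exact h4
    have h5 := hC1 w N0 _ hGx hlog
    refine h5.mono ?_
    have h6 := log_le_of_pow (hd w)
    have h6' := log_adv (n := w.length + Ns w) (w := m) (s := s)
    have h7 := hL1 (w.length + Ns w)
    rw [← hm] at h6
    generalize Nat.log 2 (w.length + Ns w + 2) = L at h6 h7 ⊢
    generalize Nat.log 2 (w.length + Ns w + m + 2) = L' at h6 h6'
    generalize Nat.log 2 (w.length + Ns w + (m + (2 * s + 1)) + 2) = L'' at h6' ⊢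
    have h8 : C2 * (s + L'') + C2 ≤ (C2 * (2 * d + 4) + 3 * C2) * (s + L) := by
      have h9 : C2 * L'' ≤ C2 * ((2 * d + 4) * L + (s + 1)) :=
        Nat.mul_le_mul_left _ (by omega)
      nlinarith [Nat.zero_le (C2 * d * s), Nat.zero_le (C2 * s), Nat.mul_le_mul_left C2 h7]
    have h9 := Nat.mul_le_mul_left C h8
    nlinarith

end Vale.Agent.P313.UV
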