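import Vale.Agent.P313.H463.UV.Code
import Vale.Agent.P313.H463.UD.Core2
import Vale.Agent.P313.H589.UD.U1a

/-!
The universal machine for codes of randomized machines: definitions, statements of the modules.
-/

namespace Vale.Agent.P313.UV

open Finset UD UDS

/-! ### One step of a machine given by its tables -/

/-- The digits of the next configuration. `tp`: number of tapes, `g`: radix of the tapes, `W`:
radix of the codes of configurations, `tb`: the entries of the table for the seen situation. -/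
def und (n tp g W : ℕ) (tb : ℕ → ℕ) (v j : ℕ) : ℕ :=
  if j = 0 then tb 0
  else if j = 1 then
    dsel (tb 1) (dgt W v 1 - 1) (dgt W v 1) (min (dgt W v 1 + 1) (n + 1))
  else if j - 2 < tp then
    dsel (tb (3 + 2 * (j - 2))) (dgt W v j / g) (dgt W v j)
      (tb (2 + 2 * (j - 2)) + g * dgt W v j)
  else if j - 2 - tp < tp then
    dsel (tb (3 + 2 * (j - 2 - tp))) (dgt W v (j - tp) % g)
      (tb (2 + 2 * (j - 2 - tp))) (dgt W v (j + tp) % g)
  else if j - 2 - tp - tp < tp then
    dsel (tb (3 + 2 * (j - 2 - tp - tp)))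
      (tb (2 + 2 * (j - 2 - tp - tp)) + g * dgt W v j)
      (dgt W v j) (dgt W v j / g)
  else 0

/-- The number of the situation in the configuration with code `v`. -/
def ukey (sy : ℕ → ℕ) (tp g q W N v : ℕ) : ℕ :=
  dgt W v 0 + q * (sy (dgt W v 1) + 4 *
    ∑ i ∈ range tp, dgt W v (2 + tp + i) * min (g ^ i) (N + 1))

/-- The next configuration; `N + 1` is the code of a failure. -/
def nxt (sy : ℕ → ℕ) (n tp g q W : ℕ) (tb : ℕ → ℕ → ℕ) (N v : ℕ) : ℕ :=
  if ∀ j < 2 + 3 * tp, und n tp g W (tb (ukey sy tp g q W N v)) v j < W then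
    ∑ j ∈ range (2 + 3 * tp), und n tp g W (tb (ukey sy tp g q W N v)) v j * min (W ^ j) (N + 1)
  else N + 1

/-- The chain: state `0` accepted, state `1` rejected or failed, state `v + 2` the configuration
with code `v ≤ N`. -/
def uch (sy : ℕ → ℕ) (n tp g q W : ℕ) (vt : ℕ → ℕ) (tb : ℕ → ℕ → ℕ → ℕ) (N v b : ℕ) : ℕ :=
  if v < 2 then v
  else if vt (dgt W (v - 2) 0) = 2 then 0
  else if vt (dgt W (v - 2) 0) = 1 then 1
  else if nxt sy n tp g q W (tb b) N (v - 2) ≤ N then
    nxt sy n tp g q W (tb b) N (v - 2) + 2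
  else 1

/-! ### Decoding -/

/-- Zeros among the first `p` bits. -/
def zc (w : List Bool) (p : ℕ) : ℕ := ∑ i ∈ range p, if syc (inSym w (i + 1)) = 2 then 1 else 0

/-- The length of block number `i`: the ones with exactly `i` zeros before them. -/
def blk (w : List Bool) (i : ℕ) : ℕ :=
  ∑ p ∈ range w.length, if syc (inSym w (p + 1)) = 3 ∧ zc w p = i then 1 else 0

/-- The length of the first `m` blocks with their zeros. -/
def off (w : List Bool) (m : ℕ) : ℕ := ∑ p ∈ range w.length, if zc w p < m then 1 else 0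

def tpW (w : List Bool) : ℕ := blk w 0
def gW (w : List Bool) : ℕ := blk w 1
def qW (w : List Bool) : ℕ := blk w 2
def stW (w : List Bool) : ℕ := blk w 3
def cW (w : List Bool) : ℕ := blk w 4
def nkW (w : List Bool) : ℕ := qW w * 4 * min (gW w ^ tpW w) (w.length + 1)
def vtW (w : List Bool) (i : ℕ) : ℕ := blk w (5 + i)
def tbW (w : List Bool) (b κ i : ℕ) : ℕ :=
  blk w (5 + qW w + (b * nkW w + κ) * (2 + 2 * tpW w) + i)
def mW (w : List Bool) : ℕ := 5 + qW w + 2 * nkW w * (2 + 2 * tpW w)
/-- The length of the input of the described machine. -/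
def nW (w : List Bool) : ℕ := w.length - off w (mW w)
/-- The codes of its symbols. -/
def syW (w : List Bool) (p : ℕ) : ℕ := if p = 0 then 0 else syc (inSym w (off w (mW w) + p))

/-! ### The chain of a word -/

def aW (w : List Bool) : ℕ := qW w + gW w * (cW w + 1) + cW w + 3
def WW (w : List Bool) (N : ℕ) : ℕ := min ((nW w + 2) ^ aW w) (N + 1)
def NN (w : List Bool) (N : ℕ) : ℕ := min ((nW w + 2) ^ (aW w * (2 + 3 * tpW w))) (N + 1)
def TT (w : List Bool) (N : ℕ) : ℕ := min ((nW w + 2) ^ cW w) (N + 1) + 1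
def VV (w : List Bool) (N : ℕ) : ℕ := NN w N + 3
def KK (w : List Bool) (N : ℕ) : ℕ := 12 * (TT w N + 1) * (VV w N + 1) ^ 2
def SS (w : List Bool) (N : ℕ) : ℕ := min (stW w) (NN w N) + 2
def CC (w : List Bool) (N v b : ℕ) : ℕ :=
  uch (syW w) (nW w) (tpW w) (gW w) (qW w) (WW w N) (vtW w) (tbW w) (NN w N) v b
/-- `N` is large enough. -/
def Big (w : List Bool) (N : ℕ) : Prop := (nW w + 2) ^ (aW w * (2 + 3 * tpW w)) ≤ N

/-! ### Module D: decoding -/

/-- MODULE D. -/
def DecodeSpec : Prop :=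
  ∀ (M : RTM) (c : ℕ) (l : List ℕ) (x : List Bool), IsCode M c l →
    tpW (unary l ++ x) = M.tapes ∧ gW (unary l ++ x) = M.g ∧
    qW (unary l ++ x) = Fintype.card M.State ∧ stW (unary l ++ x) = M.cQ M.start ∧
    cW (unary l ++ x) = c ∧
    (∀ q : M.State, vtW (unary l ++ x) (M.cQ q) = U1.vc (M.verdict q)) ∧
    (∀ (b : Bool) (q : M.State) (s : InSym) (h : Fin M.tapes → M.Sym) (i : ℕ),
      i < 2 + 2 * M.tapes →
      tbW (unary l ++ x) b.toNat (keyNo M q s h) i = actNo M b q s h i) ∧
    nW (unary l ++ x) = x.length ∧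
    (∀ p, syW (unary l ++ x) p = syc (inSym x p))

/-- MODULE E: every machine has a code. -/
def CodeExists : Prop := ∀ (M : RTM) (c : ℕ), ∃ l : List ℕ, IsCode M c l

/-! ### Module L: everything is in `LF` -/

/-- MODULE L. -/
def DecLF : Prop :=
  ∀ (k : ℕ) (N v b : Fn k), LF N → LF v → LF b →
    LF (fun w a => TT w (N w a)) ∧ LF (fun w a => VV w (N w a)) ∧
    LF (fun w a => KK w (N w a)) ∧ LF (fun w a => SS w (N w a)) ∧
    LFP (fun w a => Big w (N w a)) ∧
    LF (fun w a => CC w (N w a) (v w a) (b w a))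

/-! ### Module P: the probability -/

/-- MODULE P (may assume `DecodeSpec`). -/
def ProbSpec : Prop :=
  ∀ (M : RTM) (c : ℕ) (l : List ℕ) (x : List Bool), IsCode M c l →
    M.Bounded (fun n => (n + 2) ^ c) (fun n => c * Nat.log 2 (n + 2)) →
    ∀ N, Big (unary l ++ x) N →
      hit (toB (CC (unary l ++ x) N)) 0 (TT (unary l ++ x) N) (SS (unary l ++ x) N) =
        M.probAt x true ((x.length + 2) ^ c) 0 M.init

end Vale.Agent.P313.UV
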