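import Vale.Agent.P313.H463.UD.Stmt
import Vale.Agent.P313.H463.UV.Code

/-!
Definitions for the statement of the hand-in `UniversalDerandomizer`: a machine with a fixed word
in front of its input.
-/

namespace Vale.Agent.P313.UDS

/-- The machine `U` with the fixed word `m` in front of its input decides `A`: on the input
`m ++ x` it halts after at most `T |x|` steps with the right verdict about `x ∈ A` and visits at
most `S |x|` cells of each work tape. -/
def DecidesFrom (U : RTM) (m : List Bool) (A : Set (List Bool)) (T S : ℕ → ℝ) : Prop :=
  ∀ (x : List Bool) (ω : ℕ → Bool),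
    (∀ t : ℕ, T x.length ≤ t →
      (x ∈ A → U.verdict (U.run (m ++ x) ω t).state = some true) ∧
      (x ∉ A → U.verdict (U.run (m ++ x) ω t).state = some false)) ∧
    ∀ (t : ℕ) (i : Fin U.tapes), (((U.run (m ++ x) ω t).work i).cells : ℝ) ≤ S x.length

end Vale.Agent.P313.UDS
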