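import Vale.Agent.P313.H463.UV.Core3
import Vale.Agent.P313.H463.UV.Stmt
import Vale.Agent.P313.H463.UD.Bridge

/-!
The universal machine for codes of randomized machines: space bounds for a fixed code.
-/

namespace Vale.Agent.P313.UV

open Finset Sel UD

/-- A solution of the promise problem of `R` from the assumption about promise-`BPL`. -/
theorem cond_solver {R : RTM} {c0 : ℕ}
    (hRb : R.Bounded (fun n => (n + 2) ^ c0) (fun n => c0 * Nat.log 2 (n + 2)))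
    {S : ℕ → ℝ} (hSn : UD.Nice S) (hPS : UD.PromiseBPLIn S ∨ UD.PromiseBPLInAdvice S) :
    ∃ (D' : RTM) (e' : ℝ), D'.Deterministic ∧
      ∀ m : ℕ, ∃ (l a : ℕ), (l : ℝ) ≤ |e'| * S m + 1 ∧
        a < 2 ^ (l - 1) ∧ ∀ y : List Bool, y.length = m → ∃ r : Bool,
        (∀ ω : ℕ → Bool, (∃ t, D'.verdict (D'.run (xw l a y) ω t).state = some r) ∧
          ∀ t i, (((D'.run (xw l a y) ω t).work i).cells : ℝ) ≤ e' * S m) ∧
        (2 / 3 ≤ R.probAt y true ((y.length + 2) ^ c0) 0 R.init → r = true) ∧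
        (R.probAt y true ((y.length + 2) ^ c0) 0 R.init ≤ 1 / 3 → r = false) := by
  rcases hPS with hPS | hPS
  · obtain ⟨D', e', hD', hsol⟩ := hPS R c0 hRb
    refine ⟨D', e', hD', fun m => ⟨0, 0, ?_, by positivity, fun y hy => ?_⟩⟩
    · have := hSn.one_le m
      push_cast
      positivity
    · subst hy
      exact hsol y
  · obtain ⟨D', e', hD', hsol⟩ := hPS R c0 hRb
    refine ⟨D', e', hD', fun m => ?_⟩
    obtain ⟨α, hα, h⟩ := hsol m
    obtain ⟨a, ha, haw⟩ := exists_aw α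
    refine ⟨α.length + 1, a, ?_, by simpa using ha, fun y hy => ?_⟩
    · have h1 := hSn.one_le m
      have h2 : e' * S m ≤ |e'| * S m :=
        mul_le_mul_of_nonneg_right (le_abs_self _) (by linarith)
      push_cast
      linarith
    · have : xw (α.length + 1) a y = UD.adv α y := by
        unfold xw
        rw [if_neg (by omega), Nat.add_sub_cancel, haw]
      rw [this]
      exact h y hy

/-- From one input to `DecidesFrom`. -/
theorem decidesFrom_of_done {U : RTM} {m : List Bool} {A : Set (List Bool)} {S : ℕ → ℝ}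
    (h : ∀ x : List Bool, ∃ (r : Bool) (s : ℕ), (r = true ↔ x ∈ A) ∧ DoneIn U (m ++ x) r s ∧
      (s : ℝ) ≤ S x.length) :
    UDS.DecidesFrom U m A (fun n => (2 : ℝ) ^ S n) S := by
  intro x ω
  obtain ⟨r, s, hr, hd, hs⟩ := h x
  refine ⟨fun t ht => ?_, fun t i => ?_⟩
  · have ht' : 2 ^ s ≤ t := by
      have h1 : ((2 ^ s : ℕ) : ℝ) ≤ (t : ℝ) := by
        refine le_trans ?_ ht
        push_cast
        rw [← Real.rpow_natCast]
        exact Real.rpow_le_rpow_of_exponent_le (by norm_num) hs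
      exact_mod_cast h1
    have h2 := (hd ω).1 t ht'
    refine ⟨fun hx => ?_, fun hx => ?_⟩
    · rw [h2, hr.2 hx]
    · have : r = false := by
        cases hrr : r
        · rfl
        · exact absurd (hr.1 hrr) hx
      rw [h2, this]
  · have := (hd ω).2 t i
    exact le_trans (by exact_mod_cast this) hs

/-- The size of the parameters for a fixed code. -/
theorem size_fixed (hD : DecodeSpec) {M : RTM} {c : ℕ} {l : List ℕ} (hl : UDS.IsCode M c l) :
    ∃ d : ℕ, ∀ x : List Bool,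
      (UDS.unary l).length + Ns (UDS.unary l ++ x) ≤ (x.length + 2) ^ d := by
  set a := Fintype.card M.State + M.g * (c + 1) + c + 3 with ha
  set B0 := (UDS.unary l).length with hB
  refine ⟨B0 + a * (2 + 3 * M.tapes) + 1, fun x => ?_⟩
  obtain ⟨h1, h2, h3, -, h5, -, -, h8, -⟩ := hD M c l x hl
  have e1 : Ns (UDS.unary l ++ x) = (x.length + 2) ^ (a * (2 + 3 * M.tapes)) := by
    unfold Ns aW
    rw [h8, h1, h2, h3, h5]
  rw [e1]
  have g1 : B0 ≤ (x.length + 2) ^ B0 :=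
    (Nat.lt_pow_self (by omega : 1 < x.length + 2)).le
  have g2 : 1 ≤ (x.length + 2) ^ (a * (2 + 3 * M.tapes)) := Nat.one_le_pow _ _ (by omega)
  have g3 : 1 ≤ (x.length + 2) ^ B0 := Nat.one_le_pow _ _ (by omega)
  have g4 := add_le_mul g3 g2
  rw [pow_succ, pow_add]
  have g5 : 2 * ((x.length + 2) ^ B0 * (x.length + 2) ^ (a * (2 + 3 * M.tapes))) ≤
      (x.length + 2) ^ B0 * (x.length + 2) ^ (a * (2 + 3 * M.tapes)) * (x.length + 2) := by
    rw [mul_comm]
    exact Nat.mul_le_mul_left _ (by omega)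
  omega

/-- Sizes for a fixed word in front. -/
theorem sizes (hV : WordSpec) {m : List Bool} {d0 dw : ℕ}
    (hd0 : ∀ x : List Bool, m.length + Ns (m ++ x) ≤ (x.length + 2) ^ d0)
    (hdw : ∀ w : List Bool, wlen (KK w (Ns w)) ≤ (w.length + Ns w + 2) ^ dw) :
    (∀ x, ∀ y ∈ Qu (m ++ x), y.length ≤ (x.length + 2) ^ ((d0 + 2) * dw)) ∧
    ∀ x : List Bool, Nat.log 2 ((m ++ x).length + Ns (m ++ x) + 2) ≤
      (2 * d0 + 4) * Nat.log 2 (x.length + 2) := by
  have hsz : ∀ x : List Bool, (m ++ x).length + Ns (m ++ x) + 2 ≤ (x.length + 2) ^ (d0 + 2) := by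
    intro x
    have h1 := hd0 x
    rw [List.length_append]
    have h2 : 1 ≤ (x.length + 2) ^ d0 := Nat.one_le_pow _ _ (by omega)
    have h3 : (x.length + 2) ^ (d0 + 2) =
        (x.length + 2) ^ d0 * ((x.length + 2) * (x.length + 2)) := by
      rw [pow_add, pow_two]
    have h4 : (x.length + 2) ^ d0 + (x.length + 2) ≤
        (x.length + 2) ^ d0 * ((x.length + 2) * (x.length + 2)) := by
      have h5 : 2 * (x.length + 2) ≤ (x.length + 2) * (x.length + 2) :=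
        Nat.mul_le_mul_right _ (by omega)
      have h6 : (x.length + 2) ^ d0 * (2 * (x.length + 2)) ≤
          (x.length + 2) ^ d0 * ((x.length + 2) * (x.length + 2)) := Nat.mul_le_mul_left _ h5
      have h7 := add_le_mul h2 (show 1 ≤ x.length + 2 by omega)
      have h8 : 2 * ((x.length + 2) ^ d0 * (x.length + 2)) =
          (x.length + 2) ^ d0 * (2 * (x.length + 2)) := by ring
      omega
    rw [h3]
    omega
  refine ⟨fun x y hy => ?_, fun x => ?_⟩
  · rw [Qu_len hV hy, pow_mul]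
    exact (hdw _).trans (Nat.pow_le_pow_left (hsz x) dw)
  · have h1 := log_le_of_pow (hd0 x)
    have h2 : (m ++ x).length + Ns (m ++ x) + 2 = x.length + (m.length + Ns (m ++ x)) + 2 := by
      rw [List.length_append]; ring
    rw [h2]
    exact h1

theorem memF (w : List Bool) : yF w ∈ Qu w := by
  refine ⟨_, le_rfl, 0, ?_, _, ?_, rfl⟩
  · have := VV_pos w (Ns w); omega
  · have := KK_pos w (Ns w); omega

/-- The query about acceptance has the right answer. -/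
theorem fb_ans {R : RTM} {c0 : ℕ} (hR : WalkOk R c0) {D4 : RTM} {A4 : Set (List Bool)} {e4 : ℝ}
    {f : ℕ → ℝ} (hd4 : D4.Decides A4 (fun n => (2 : ℝ) ^ (e4 * f n)) (fun n => e4 * f n))
    (hp4 : ∀ x : List Bool,
      (2 / 3 ≤ R.probAt x true ((x.length + 2) ^ c0) 0 R.init → x ∈ A4) ∧
      (R.probAt x true ((x.length + 2) ^ c0) 0 R.init ≤ 1 / 3 → x ∉ A4))
    {w : List Bool} {p : ℚ} (hp : hit (toB (CC w (Ns w))) 0 (TT w (Ns w)) (SS w (Ns w)) = p) :
    ∃ (r : Bool) (s : ℕ), HaltsIn D4 (yF w) r s ∧ s = ⌊e4 * f (yF w).length⌋₊ ∧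
      (2 / 3 ≤ p → r = true) ∧ (p ≤ 1 / 3 → r = false) := by
  obtain ⟨r, hr, hh⟩ := halts_of_decides hd4 (yF w)
  have hVK := VV_le_KK w (Ns w)
  have hTK := TT_le_KK w (Ns w)
  have hK12 : 12 ≤ KK w (Ns w) := by
    unfold KK
    have g1 : 1 ≤ (TT w (Ns w) + 1) * (VV w (Ns w) + 1) ^ 2 :=
      Nat.mul_pos (by omega) (by positivity)
    nlinarith
  have hwalk := hR (KK w (Ns w)) (CC w (Ns w)) (SS w (Ns w)) (KK w (Ns w)) (TT w (Ns w)) 0
    (KK w (Ns w) / 2) (CC_closed w (Ns w) hVK) ((SS_lt w (Ns w)).trans_le hVK) hTK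
    (by omega) (by omega) le_rfl
  rw [hp] at hwalk
  change ((((KK w (Ns w) / 2 : ℕ) : ℚ) + 1) / KK w (Ns w) ≤ _ →
    2 / 3 ≤ R.probAt (yF w) true (((yF w).length + 2) ^ c0) 0 R.init) ∧
    (_ ≤ (((KK w (Ns w) / 2 : ℕ) : ℚ)) / KK w (Ns w) →
      R.probAt (yF w) true (((yF w).length + 2) ^ c0) 0 R.init ≤ 1 / 3) at hwalk
  have hKpos : (0 : ℚ) < KK w (Ns w) := by
    have : 0 < KK w (Ns w) := by omega
    exact_mod_cast this
  refine ⟨r, _, hh, rfl, fun hp1 => ?_, fun hp1 => ?_⟩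
  · refine hr.2 ((hp4 (yF w)).1 (hwalk.1 (le_trans ?_ hp1)))
    rw [div_le_iff₀ hKpos]
    have g1 : 2 * (KK w (Ns w) / 2) ≤ KK w (Ns w) := Nat.mul_div_le _ _
    have g2 : (2 : ℚ) * ((KK w (Ns w) / 2 : ℕ) : ℚ) ≤ KK w (Ns w) := by exact_mod_cast g1
    have g3 : (12 : ℚ) ≤ KK w (Ns w) := by exact_mod_cast hK12
    linarith
  · have h7 : yF w ∉ A4 := by
      refine (hp4 (yF w)).2 (hwalk.2 (hp1.trans ?_))
      rw [le_div_iff₀ hKpos]
      have g1 : KK w (Ns w) ≤ 2 * (KK w (Ns w) / 2) + 1 := by omega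
      have g2 : (KK w (Ns w) : ℚ) ≤ 2 * ((KK w (Ns w) / 2 : ℕ) : ℚ) + 1 := by
        exact_mod_cast g1
      have g3 : (12 : ℚ) ≤ KK w (Ns w) := by exact_mod_cast hK12
      linarith
    cases hrr : r
    · rfl
    · exact absurd (hr.1 hrr) h7

/-- From resources to `DecidesFrom`. -/
theorem from_res {U : RTM} {m : List Bool} {rw' : List Bool → Bool} {g : ℕ → ℝ}
    (hg : UD.Nice g) {d0 e : ℕ} {K : ℝ}
    (hlog : ∀ x : List Bool, Nat.log 2 ((m ++ x).length + Ns (m ++ x) + 2) ≤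
      (2 * d0 + 4) * Nat.log 2 (x.length + 2))
    (h : ∀ x : List Bool, ∃ s : ℕ, (s : ℝ) ≤ K * g x.length ∧ DoneIn U (m ++ x) (rw' (m ++ x))
      (e * (s + Nat.log 2 ((m ++ x).length + Ns (m ++ x) + 2)))) :
    UDS.DecidesFrom U m {x | rw' (m ++ x) = true}
      (fun n => (2 : ℝ) ^ (e * (K + (2 * d0 + 4)) * g n))
      (fun n => e * (K + (2 * d0 + 4)) * g n) := by
  refine decidesFrom_of_done (fun x => ?_)
  obtain ⟨s, h2, hdone⟩ := h x
  refine ⟨rw' (m ++ x), _, Iff.rfl, hdone, ?_⟩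
  have h3 : ((Nat.log 2 ((m ++ x).length + Ns (m ++ x) + 2) : ℕ) : ℝ) ≤
      (2 * d0 + 4) * g x.length := by
    have h4 : ((Nat.log 2 ((m ++ x).length + Ns (m ++ x) + 2) : ℕ) : ℝ) ≤
        (((2 * d0 + 4) * Nat.log 2 (x.length + 2) : ℕ) : ℝ) := by exact_mod_cast hlog x
    refine h4.trans ?_
    push_cast
    exact mul_le_mul_of_nonneg_left ((natlog_le_logb _).trans (hg.log_le _)) (by positivity)
  push_cast
  calc (e : ℝ) * ((s : ℝ) + ((Nat.log 2 ((m ++ x).length + Ns (m ++ x) + 2) : ℕ) : ℝ))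
      ≤ e * (K * g x.length + (2 * d0 + 4) * g x.length) :=
        mul_le_mul_of_nonneg_left (add_le_add h2 h3) (Nat.cast_nonneg _)
    _ = e * (K + (2 * d0 + 4)) * g x.length := by ring

/-- The space of the fallback. -/
theorem fb_space {f : ℕ → ℝ} (hfn : UD.Nice f) {m : List Bool} {e4 C : ℝ} {q : ℕ}
    (hCp : ∀ n : ℕ, f ((n + 2) ^ q) ≤ C * f n)
    (hlen : ∀ x, ∀ y ∈ Qu (m ++ x), y.length ≤ (x.length + 2) ^ q) (x : List Bool) :
    ((⌊e4 * f (yF (m ++ x)).length⌋₊ : ℕ) : ℝ) ≤ |e4| * |C| * f x.length := by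
  have hf1 := hfn.one_le x.length
  have h3 : f (yF (m ++ x)).length ≤ |C| * f x.length :=
    (hfn.mono (hlen x _ (memF _))).trans ((hCp _).trans
      (mul_le_mul_of_nonneg_right (le_abs_self _) (by linarith)))
  have h4 : 1 ≤ f (yF (m ++ x)).length := hfn.one_le _
  have h5 : ((⌊e4 * f (yF (m ++ x)).length⌋₊ : ℕ) : ℝ) ≤ |e4| * f (yF (m ++ x)).length := by
    rcases le_total 0 (e4 * f (yF (m ++ x)).length) with h | h
    · exact (Nat.floor_le h).trans (mul_le_mul_of_nonneg_right (le_abs_self _) (by linarith))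
    · rw [Nat.floor_of_nonpos h, Nat.cast_zero]; positivity
  calc _ ≤ |e4| * f (yF (m ++ x)).length := h5
    _ ≤ |e4| * (|C| * f x.length) := mul_le_mul_of_nonneg_left h3 (abs_nonneg _)
    _ = |e4| * |C| * f x.length := by ring

/-- The conditional bound. -/
theorem cond_res (hV : WordSpec) {R : RTM} {c0 : ℕ} {D' : RTM} {e' C : ℝ} {S : ℕ → ℝ}
    (hSn : UD.Nice S)
    (hsol : ∀ m : ℕ, ∃ (l a : ℕ), (l : ℝ) ≤ |e'| * S m + 1 ∧
        a < 2 ^ (l - 1) ∧ ∀ y : List Bool, y.length = m → ∃ r : Bool,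
        (∀ ω : ℕ → Bool, (∃ t, D'.verdict (D'.run (xw l a y) ω t).state = some r) ∧
          ∀ t i, (((D'.run (xw l a y) ω t).work i).cells : ℝ) ≤ e' * S m) ∧
        (2 / 3 ≤ R.probAt y true ((y.length + 2) ^ c0) 0 R.init → r = true) ∧
        (R.probAt y true ((y.length + 2) ^ c0) 0 R.init ≤ 1 / 3 → r = false))
    {m : List Bool} {q : ℕ} (hCp : ∀ n : ℕ, S ((n + 2) ^ q) ≤ C * S n)
    (hlen : ∀ x, ∀ y ∈ Qu (m ++ x), y.length ≤ (x.length + 2) ^ q) (x : List Bool) :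
    ∃ (s l a : ℕ), (s : ℝ) ≤ |e'| * |C| * S x.length ∧ l ≤ s + 1 ∧ a < 2 ^ s ∧
      ∀ y ∈ Qu (m ++ x), SolvesFor D' R c0 y (xw l a y) s := by
  have h1 := hSn.one_le x.length
  have hb : 0 ≤ |e'| * |C| * S x.length := by positivity
  obtain ⟨k, hk⟩ : ∃ k, k = wlen (KK (m ++ x) (Ns (m ++ x))) := ⟨_, rfl⟩
  have hql : k ≤ (x.length + 2) ^ q := by
    have h2 := hlen x _ (memF (m ++ x))
    rwa [Qu_len hV (memF (m ++ x)), ← hk] at h2
  obtain ⟨l', a, hl', ha, hy⟩ := hsol k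
  have hSm : S k ≤ |C| * S x.length := (hSn.mono hql).trans ((hCp _).trans
    (mul_le_mul_of_nonneg_right (le_abs_self _) (by linarith)))
  have hS1 := hSn.one_le k
  have hes : |e'| * S k ≤ |e'| * |C| * S x.length := by
    rw [mul_assoc]; exact mul_le_mul_of_nonneg_left hSm (abs_nonneg _)
  obtain ⟨s, hs⟩ : ∃ s, s = ⌊|e'| * |C| * S x.length⌋₊ := ⟨_, rfl⟩
  have hl1 : l' ≤ s + 1 := by
    rcases Nat.eq_zero_or_pos l' with h0 | h0
    · omega
    · have h5 : ((l' - 1 : ℕ) : ℝ) ≤ |e'| * |C| * S x.length := by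
        rw [Nat.cast_sub (by omega)]
        push_cast
        linarith
      have h6 := Nat.le_floor h5
      omega
  refine ⟨s, l', a, ?_, hl1, ha.trans_le (Nat.pow_le_pow_right (by norm_num) (by omega)),
    fun y hyQ => ?_⟩
  · rw [hs]; exact Nat.floor_le hb
  · obtain ⟨r, hr1, hr2, hr3⟩ := hy y (by rw [Qu_len hV hyQ, hk])
    refine ⟨r, fun ω => ⟨(hr1 ω).1, fun t i => ?_⟩, hr2, hr3⟩
    rw [hs]
    refine Nat.le_floor ?_
    have h2 := (hr1 ω).2 t i
    refine h2.trans (le_trans ?_ hes)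
    exact mul_le_mul_of_nonneg_right (le_abs_self _) (by linarith)

/-- What the universal machine does for one code. -/
def ForCode (U R : RTM) (c0 : ℕ) (f : ℕ → ℝ) (M : RTM) (c : ℕ) (m : List Bool) : Prop :=
  ∃ (A : Set (List Bool)) (Q : List Bool → Set (List Bool)) (d : ℕ),
    (∃ e : ℝ, UDS.DecidesFrom U m A (fun n => (2 : ℝ) ^ (e * f n)) (fun n => e * f n)) ∧
    (∀ x : List Bool,
      (2 / 3 ≤ M.probAt x true ((x.length + 2) ^ c) 0 M.init → x ∈ A) ∧
      (M.probAt x true ((x.length + 2) ^ c) 0 M.init ≤ 1 / 3 → x ∉ A)) ∧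
    (∀ x, ∀ y ∈ Q x, UDS.ChainQuery y ∧ y.length ≤ (x.length + 2) ^ d) ∧
    (∀ D' : RTM, D'.Deterministic → ∃ e : ℕ, ∀ (x : List Bool) (s : ℕ),
      ((∀ y ∈ Q x, UDS.SolvesFor D' R c0 y y s) ∨
        ∃ α : List Bool, α.length ≤ s ∧ ∀ y ∈ Q x, UDS.SolvesFor D' R c0 y (UDS.adv α y) s) →
      ∀ ω : ℕ → Bool,
        (∀ t, 2 ^ (e * (s + Nat.log 2 (x.length + 2))) ≤ t →
          (x ∈ A → U.verdict (U.run (m ++ x) ω t).state = some true) ∧
          (x ∉ A → U.verdict (U.run (m ++ x) ω t).state = some false)) ∧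
        ∀ t i, ((U.run (m ++ x) ω t).work i).cells ≤ e * (s + Nat.log 2 (x.length + 2))) ∧
    (∀ S : ℕ → ℝ, UDS.Nice S → UDS.PromiseBPLIn S ∨ UDS.PromiseBPLInAdvice S →
      ∃ e : ℝ, UDS.DecidesFrom U m A (fun n => (2 : ℝ) ^ (e * S n)) (fun n => e * S n))

/-- Optimality for a fixed word in front. -/
theorem opt_res {U R D' : RTM} {c0 d0 e : ℕ} {m : List Bool} {rw' : List Bool → Bool}
    (hlog : ∀ x : List Bool, Nat.log 2 ((m ++ x).length + Ns (m ++ x) + 2) ≤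
      (2 * d0 + 4) * Nat.log 2 (x.length + 2))
    (he : ∀ w s l a, l ≤ s + 1 → a < 2 ^ s → (∀ y ∈ Qu w, SolvesFor D' R c0 y (xw l a y) s) →
      DoneIn U w (rw' w) (e * (s + Nat.log 2 (w.length + Ns w + 2))))
    (x : List Bool) (s : ℕ)
    (hq : (∀ y ∈ Qu (m ++ x), UDS.SolvesFor D' R c0 y y s) ∨
      ∃ α : List Bool, α.length ≤ s ∧
        ∀ y ∈ Qu (m ++ x), UDS.SolvesFor D' R c0 y (UDS.adv α y) s) (ω : ℕ → Bool) :
    (∀ t, 2 ^ (e * (2 * d0 + 4) * (s + Nat.log 2 (x.length + 2))) ≤ t →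
      (x ∈ {x | rw' (m ++ x) = true} → U.verdict (U.run (m ++ x) ω t).state = some true) ∧
      (x ∉ {x | rw' (m ++ x) = true} → U.verdict (U.run (m ++ x) ω t).state = some false)) ∧
    ∀ t i, ((U.run (m ++ x) ω t).work i).cells ≤
      e * (2 * d0 + 4) * (s + Nat.log 2 (x.length + 2)) := by
  have hdone : DoneIn U (m ++ x) (rw' (m ++ x)) (e * (s + Nat.log 2 ((m ++ x).length +
      Ns (m ++ x) + 2))) := by
    rcases hq with hq | ⟨α, hα, hq⟩
    · exact he (m ++ x) s 0 0 (by omega) (by positivity) (fun y hy => hq y hy)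
    · obtain ⟨a, ha, haw⟩ := exists_aw α
      refine he (m ++ x) s (α.length + 1) a (by omega)
        (ha.trans_le (Nat.pow_le_pow_right (by norm_num) hα)) (fun y hy => ?_)
      have : xw (α.length + 1) a y = UDS.adv α y := by
        unfold xw
        rw [if_neg (by omega), Nat.add_sub_cancel, haw, UDS.adv_eq]
      rw [this]
      exact hq y hy
  have hle : e * (s + Nat.log 2 ((m ++ x).length + Ns (m ++ x) + 2)) ≤
      e * (2 * d0 + 4) * (s + Nat.log 2 (x.length + 2)) := by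
    have h1 := hlog x
    rw [mul_assoc]
    refine Nat.mul_le_mul_left e ?_
    nlinarith [Nat.zero_le (d0 * s)]
  have h3 := hdone.mono hle ω
  refine ⟨fun t ht => ?_, h3.2⟩
  have h2 := h3.1 t ht
  refine ⟨fun hx => ?_, fun hx => ?_⟩
  · rw [h2, show rw' (m ++ x) = true from hx]
  · have : rw' (m ++ x) = false := by
      cases hrr : rw' (m ++ x)
      · rfl
      · exact absurd hrr hx
    rw [h2, this]

section

variable (hV : WordSpec) (hU1 : UsimSpec) (hU2 : UsimLF) (hS : ChkSound)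
  (hC : ChkComplete) (hL : ChkLF) (hDL : DecLF) (hDS : DecodeSpec) (hPr : ProbSpec)
  {R : RTM} {c0 : ℕ} (hR : WalkOk R c0)
  (hRb : R.Bounded (fun n => (n + 2) ^ c0) (fun n => c0 * Nat.log 2 (n + 2)))
  {f : ℕ → ℝ} (hfn : UD.Nice f) (hfb : Fallback f)

include hV hU1 hU2 hS hC hL hDL hDS hPr hR hRb hfn hfb

/-- ONE MACHINE FOR ALL CODES. -/
theorem fin1 : ∃ U : RTM, U.Deterministic ∧
    ∀ (M : RTM) (c : ℕ) (l : List ℕ),
      M.Bounded (fun n => (n + 2) ^ c) (fun n => c * Nat.log 2 (n + 2)) → UDS.IsCode M c l →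
      ForCode U R c0 f M c (UDS.unary l) := by
  obtain ⟨A4, D4, e4, hd4, hp4⟩ := hfb R c0 hRb
  obtain ⟨U, hU, rw', hright, ⟨e1, he1⟩, hopt⟩ := core3 hV hU1 hU2 hS hC hL hDL hR hd4.1
  refine ⟨U, hU, fun M c l hM hl => ?_⟩
  obtain ⟨d0, hd0⟩ := size_fixed hDS hl
  obtain ⟨dw, hdw⟩ := wlen_Ns
  obtain ⟨hlen, hlog⟩ := sizes hV hd0 hdw
  have hF : ∀ x : List Bool, ∃ (r : Bool) (s : ℕ), HaltsIn D4 (yF (UDS.unary l ++ x)) r s ∧
      s = ⌊e4 * f (yF (UDS.unary l ++ x)).length⌋₊ ∧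
      (2 / 3 ≤ M.probAt x true ((x.length + 2) ^ c) 0 M.init → r = true) ∧
      (M.probAt x true ((x.length + 2) ^ c) 0 M.init ≤ 1 / 3 → r = false) := fun x =>
    fb_ans hR hd4 hp4 (hPr M c l x hl hM _ le_rfl)
  have hA : ∀ x : List Bool,
      (2 / 3 ≤ M.probAt x true ((x.length + 2) ^ c) 0 M.init →
        rw' (UDS.unary l ++ x) = true) ∧
      (M.probAt x true ((x.length + 2) ^ c) 0 M.init ≤ 1 / 3 →
        rw' (UDS.unary l ++ x) = false) := by
    intro x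
    obtain ⟨r, s, h1, -, h2, h3⟩ := hF x
    exact hright (UDS.unary l ++ x) _ (hPr M c l x hl hM _ le_rfl) ⟨r, s, h1, h2, h3⟩
  refine ⟨{x | rw' (UDS.unary l ++ x) = true}, fun x => Qu (UDS.unary l ++ x),
    (d0 + 2) * dw, ?_, fun x => ⟨fun h => (hA x).1 h, fun h h' => ?_⟩,
    fun x y hy => ⟨?_, hlen x y hy⟩, ?_, ?_⟩
  · -- the fallback bound
    obtain ⟨C, hCp⟩ := hfn.poly ((d0 + 2) * dw)
    exact ⟨_, from_res hfn (K := |e4| * |C|) (e := e1) hlog (fun x => by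
      obtain ⟨r, s, h1, hs, -⟩ := hF x
      refine ⟨s, ?_, he1 _ _ _ h1⟩
      rw [hs]
      exact fb_space hfn hCp hlen x)⟩
  · have h1 := (hA x).2 h
    have h2 : rw' (UDS.unary l ++ x) = true := h'
    rw [h1] at h2
    exact absurd h2 (by simp)
  · -- the form of the queries
    obtain ⟨t, ht, u, hu, j, hj, rfl⟩ := hy
    have hVK := VV_le_KK (UDS.unary l ++ x) (Ns (UDS.unary l ++ x))
    have hTK := TT_le_KK (UDS.unary l ++ x) (Ns (UDS.unary l ++ x))
    exact ⟨_, _, _, _, _, _, _, ⟨CC_closed _ _ hVK, (SS_lt _ _).trans_le hVK, ht.trans hTK,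
      hu.trans_le hVK, hj, le_rfl⟩, rfl⟩
  · -- optimality
    intro D' hD'
    obtain ⟨e, he⟩ := hopt D' hD'
    exact ⟨e * (2 * d0 + 4), fun x s hq ω => opt_res hlog he x s hq ω⟩
  · -- conditional bounds
    intro S hSn0 hPS0
    have hSn := UDS.nice_iff.1 hSn0
    have hPS : UD.PromiseBPLIn S ∨ UD.PromiseBPLInAdvice S := hPS0.imp UDS.in_iff.1
      UDS.advice_iff.1
    obtain ⟨D', e', hD', hsol⟩ := cond_solver hRb hSn hPS
    obtain ⟨e, he⟩ := hopt D' hD'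
    obtain ⟨C, hCp⟩ := hSn.poly ((d0 + 2) * dw)
    exact ⟨_, from_res hSn (K := |e'| * |C|) (e := e) hlog (fun x => by
      obtain ⟨s, l', a, h1, h2, h3, h4⟩ := cond_res hV hSn hsol hCp hlen x
      exact ⟨s, h1, he _ s l' a h2 h3 h4⟩)⟩

end

end Vale.Agent.P313.UV
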