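import Vale.Agent.P313.H463.UV.Back
import Vale.Agent.P313.H72.UV.Tab
import Vale.Agent.P313.H72.UV.Lf
import Vale.Agent.P313.H215.UV.D
import Vale.Agent.P313.H215.UV.E

/-!
The universal machine for codes of randomized machines: the final theorem.
-/

namespace Vale.Agent.P313.UV

open UD UDS

/-- ONE UNIVERSAL MACHINE. -/
theorem universal_code :
    ∃ (R : RTM) (c0 : ℕ), R.Bounded (fun n => (n + 2) ^ c0) (fun n => c0 * Nat.log 2 (n + 2)) ∧
      Answers R c0 ∧ ∃ U : RTM, U.Deterministic ∧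
      (∀ (M : RTM) (c : ℕ) (l : List ℕ),
        M.Bounded (fun n => (n + 2) ^ c) (fun n => c * Nat.log 2 (n + 2)) → IsCode M c l →
        ForCode U R c0 (fun n => Real.logb 2 (n + 2) ^ ((4 : ℝ) / 3)) M c (unary l)) ∧
      (∀ l : List ℕ, IsCode R c0 l → ∀ S : ℕ → ℝ, UDS.Nice S → (UDS.PromiseBPLIn S ↔
        ∃ e : ℝ, ∀ (x : List Bool) (ω : ℕ → Bool) (t : ℕ) (i : Fin U.tapes),
          (((U.run (unary l ++ x) ω t).work i).cells : ℝ) ≤ e * S x.length)) ∧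
      (∀ S : ℕ → ℝ, UDS.Nice S → UDS.PromiseBPLInAdvice S → UDS.PromiseBPLIn S) := by
  obtain ⟨R, c0, hRb, hR⟩ := UD.W.walkMachine UD.B.coinCompile UD.V.wordSpec
  obtain ⟨U, hU, h1, h2, h3⟩ := fin2 UD.V.wordSpec UD.U1.usimSpec UD.U2.usimLF UD.C1.chkSound
    UD.C2.chkComplete UD.chkLF Lf.decLF D.decodeSpec (Ind.probSpec D.decodeSpec) E.codeExists
    hR hRb (UD.nice_log (a := (4 : ℝ) / 3) (by norm_num)) UD.fallback43x
  exact ⟨R, c0, hRb, answers_of hR, U, hU, h1, h2, h3⟩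

theorem code_exists (M : RTM) (c : ℕ) : ∃ l : List ℕ, IsCode M c l := E.codeExists M c

end Vale.Agent.P313.UV
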